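import Vale.Agent.Lib.P174.LocInd

namespace Vale.Agent.Lib.P174

open Monoid.Coprod

universe u v

/-- Every nontrivial element of a commutative group is detected by a homomorphism to the
divisible group `ℚ / ℤ`. -/
theorem exists_character (A : Type u) [CommGroup A] (g : A) (hg : g ≠ 1) :
    ∃ χ : A →* Multiplicative (AddCircle (1 : ℚ)), χ g ≠ 1 := by
  have h0 : Additive.ofMul g ≠ 0 := fun h => hg (Additive.ofMul.injective h)
  obtain ⟨c, hc⟩ := CharacterModule.exists_character_apply_ne_zero_of_ne_zero h0
  let c' : Additive A →+ AddCircle (1 : ℚ) := c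
  refine ⟨AddMonoidHom.toMultiplicativeRight c', ?_⟩
  intro h
  exact hc (Multiplicative.ofAdd.injective h)

theorem exists_root (d : ℤ) (hd : d ≠ 0) (a : Multiplicative (AddCircle (1 : ℚ))) :
    ∃ h : Multiplicative (AddCircle (1 : ℚ)), h ^ d = a := by
  refine ⟨Multiplicative.ofAdd (DivisibleBy.div (Multiplicative.toAdd a) d), ?_⟩
  rw [← ofAdd_zsmul, DivisibleBy.div_cancel _ hd]
  rfl

/-- Commutative groups satisfy Howie's conjecture (over any field). -/
theorem howieOver_of_comm (k : Type*) [Field k] (A : Type u) [CommGroup A] : HowieOver k A := by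
  apply howieOver_of_scalar k
  intro n d w hd hw g hg
  by_contra hne
  obtain ⟨χ, hχ⟩ := exists_character A g hne
  have hd0 : d ≠ 0 := by
    rintro rfl
    exact hd (by simp)
  choose h hh using fun i : Fin n => exists_root d hd0 (Monoid.Coprod.lift χ 1 (w i))⁻¹
  have hχ1 : (zpowGroupHom 1).comp χ = χ := by
    ext a
    simp
  have hw1 : ∀ i, Monoid.Coprod.lift χ (FreeGroup.lift h) (w i) = 1 := by
    intro i
    have h1 := lift_eq_evalq χ 1 h (w i)
    rw [hχ1] at h1
    rw [h1]
    have hrow : Multiplicative.toAdd (expHom A (Fin n) (w i)) = Finsupp.single i d := by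
      ext j
      have h2 := congrFun (congrFun hw i) j
      simp only [expMatrix] at h2
      rw [h2]
      simp only [Matrix.smul_apply, Matrix.one_apply, Finsupp.single_apply]
      split_ifs <;> simp
    have hev : evalq h (expHom A (Fin n) (w i)) = (h i) ^ d := by
      change (Multiplicative.toAdd (expHom A (Fin n) (w i))).prod _ = _
      rw [hrow, Finsupp.prod_single_index (zpow_zero _)]
    rw [hev, hh]
    simp
  have hle : Subgroup.normalClosure (Set.range w) ≤
      (Monoid.Coprod.lift χ (FreeGroup.lift h)).ker := by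
    apply Subgroup.normalClosure_le_normal
    rintro _ ⟨i, rfl⟩
    exact hw1 i
  have h2 := hle hg
  rw [MonoidHom.mem_ker, lift_apply_inl] at h2
  exact hχ h2

end Vale.Agent.Lib.P174
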