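import Vale.Agent.Lib.P174.Basic

namespace Vale.Agent.Lib.P174

open Monoid.Coprod

universe u

/-- A two-member family of types. -/
def Fam (G A : Type u) : Bool → Type u
  | false => G
  | true => A

instance famGroup (G A : Type u) [Group G] [Group A] (b : Bool) : Group (Fam G A b) :=
  match b with
  | false => inferInstanceAs (Group G)
  | true => inferInstanceAs (Group A)

/-- A two-member family of homomorphisms. -/
def famHom {G A H : Type u} [Group G] [Group A] [Group H] (f : H →* G) (f' : H →* A) :
    ∀ b, H →* Fam G A b
  | false => f
  | true => f'

theorem famHom_injective {G A H : Type u} [Group G] [Group A] [Group H] (f : H →* G)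
    (f' : H →* A) (hf : Function.Injective f) (hf' : Function.Injective f') :
    ∀ b, Function.Injective (famHom f f' b)
  | false => hf
  | true => hf'

/-- The free product of a subgroup `S` with a free group embeds in that of the whole group. -/
theorem map_subtype_injective {G : Type u} [Group G] (S : Subgroup G) (X : Type) :
    Function.Injective (Monoid.Coprod.map S.subtype (MonoidHom.id (FreeGroup X))) := by
  let φ := famHom (G := G) (A := Monoid.Coprod S (FreeGroup X)) S.subtype inl
  have hφ : ∀ b, Function.Injective (φ b) :=
    famHom_injective _ _ S.subtype_injective Monoid.Coprod.inl_injective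
  let oG : G →* Monoid.PushoutI φ := Monoid.PushoutI.of (φ := φ) false
  let oA : Monoid.Coprod S (FreeGroup X) →* Monoid.PushoutI φ := Monoid.PushoutI.of (φ := φ) true
  let ψ : Monoid.Coprod G (FreeGroup X) →* Monoid.PushoutI φ :=
    Monoid.Coprod.lift oG (oA.comp inr)
  have hcomp : ψ.comp (Monoid.Coprod.map S.subtype (MonoidHom.id (FreeGroup X))) = oA := by
    apply Monoid.Coprod.hom_ext
    · ext s
      have h1 : oG (S.subtype s) = Monoid.PushoutI.base φ s :=
        Monoid.PushoutI.of_apply_eq_base φ false s
      have h2 : oA (inl s) = Monoid.PushoutI.base φ s :=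
        Monoid.PushoutI.of_apply_eq_base φ true s
      simp only [MonoidHom.comp_apply, map_apply_inl, ψ, lift_apply_inl]
      rw [h1, h2]
    · ext x
      simp [ψ]
  have hinj : Function.Injective oA := Monoid.PushoutI.of_injective hφ true
  intro a b hab
  apply hinj
  rw [← hcomp]
  simp only [MonoidHom.comp_apply, hab]

end Vale.Agent.Lib.P174
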