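import Mathlib

namespace Vale.Agent.Lib.P174

open Monoid.Coprod

universe u v

/-- The homomorphism `G ∗ F(X) → ℤ^(X)` that kills `G` and sends the free generator `x` to the
basis vector `e_x`. -/
noncomputable def expHom (G : Type u) [Group G] (X : Type v) :
    Monoid.Coprod G (FreeGroup X) →* Multiplicative (X →₀ ℤ) :=
  Monoid.Coprod.lift 1 (FreeGroup.lift fun x => Multiplicative.ofAdd (Finsupp.single x 1))

variable {G : Type u} [Group G]

/-- The exponent-sum matrix of a system `w` of elements of `G ∗ F(X)`. -/
noncomputable def expMatrix {I : Type*} {X : Type v} (w : I → Monoid.Coprod G (FreeGroup X)) : Matrix I X ℤ :=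
  fun i x => Multiplicative.toAdd (expHom G X (w i)) x

/-- The system `w` is solvable over `G`: the normal closure of the `w i` in `G ∗ F(X)` contains no
nontrivial element of `G`, i.e. the canonical homomorphism `G → (G ∗ F(X)) / ⟪w⟫` is injective. -/
def SolvableOver {I : Type*} {X : Type v} (w : I → Monoid.Coprod G (FreeGroup X)) : Prop :=
  ∀ g : G, (Monoid.Coprod.inl g : Monoid.Coprod G (FreeGroup X)) ∈
    Subgroup.normalClosure (Set.range w) → g = 1

/-- The finite system `w` is nonsingular over the field `k`: its exponent-sum matrix has rank `m`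
(the number of equations) over `k`. -/
def NonsingularOver (k : Type*) [Field k] {m n : ℕ}
    (w : Fin m → Monoid.Coprod G (FreeGroup (Fin n))) : Prop :=
  ((expMatrix w).map (Int.cast : ℤ → k)).rank = m

/-- Every finite system over `G` that is nonsingular over `k` is solvable over `G`. -/
def HowieOver (k : Type*) [Field k] (G : Type u) [Group G] : Prop :=
  ∀ (m n : ℕ) (w : Fin m → Monoid.Coprod G (FreeGroup (Fin n))),
    NonsingularOver k w → SolvableOver w

/-- A group is locally indicable if every nontrivial finitely generated subgroup maps onto `ℤ`. -/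
def LocallyIndicable (Q : Type*) [Group Q] : Prop :=
  ∀ K : Subgroup Q, K.FG → K ≠ ⊥ → ∃ f : K →* Multiplicative ℤ, Function.Surjective f

theorem solvableOver_iff {I : Type*} {X : Type v} (w : I → Monoid.Coprod G (FreeGroup X)) :
    SolvableOver w ↔
      ∀ g : G, (inl g : Monoid.Coprod G (FreeGroup X)) ∈ Subgroup.normalClosure (Set.range w) →
        g = 1 := Iff.rfl

theorem solvableOver_iff_injective {I : Type*} {X : Type v}
    (w : I → Monoid.Coprod G (FreeGroup X)) :
    SolvableOver w ↔ Function.Injective
      ((QuotientGroup.mk' (Subgroup.normalClosure (Set.range w))).comp Monoid.Coprod.inl) := by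
  rw [injective_iff_map_eq_one]
  simp [SolvableOver, QuotientGroup.eq_one_iff]

theorem SolvableOver.of_hom {I : Type*} {X : Type v} {w : I → Monoid.Coprod G (FreeGroup X)}
    {H : Type*} [Group H] (φ : G →* H) (hφ : Function.Injective φ) (h : X → H)
    (hw : ∀ i, Monoid.Coprod.lift φ (FreeGroup.lift h) (w i) = 1) : SolvableOver w := by
  rw [solvableOver_iff]
  intro g hg
  have hle : Subgroup.normalClosure (Set.range w) ≤
      (Monoid.Coprod.lift φ (FreeGroup.lift h)).ker := by
    apply Subgroup.normalClosure_le_normal
    rintro _ ⟨i, rfl⟩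
    exact hw i
  have := hle hg
  rw [MonoidHom.mem_ker, Monoid.Coprod.lift_apply_inl] at this
  exact (injective_iff_map_eq_one φ).1 hφ g this

theorem SolvableOver.exists_overgroup {I : Type*} {X : Type v}
    {w : I → Monoid.Coprod G (FreeGroup X)} (hw : SolvableOver w) :
    ∃ (H : Type (max u v)) (_ : Group H) (φ : G →* H) (h : X → H), Function.Injective φ ∧
      ∀ i, Monoid.Coprod.lift φ (FreeGroup.lift h) (w i) = 1 := by
  refine ⟨_, inferInstance,
    (QuotientGroup.mk' (Subgroup.normalClosure (Set.range w))).comp Monoid.Coprod.inl,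
    fun x => QuotientGroup.mk' _ (inr (FreeGroup.of x)), (solvableOver_iff_injective w).1 hw,
    fun i => ?_⟩
  have : Monoid.Coprod.lift
      ((QuotientGroup.mk' (Subgroup.normalClosure (Set.range w))).comp Monoid.Coprod.inl)
      (FreeGroup.lift fun x => QuotientGroup.mk' (Subgroup.normalClosure (Set.range w))
        (inr (FreeGroup.of x))) = QuotientGroup.mk' (Subgroup.normalClosure (Set.range w)) := by
    apply Monoid.Coprod.hom_ext
    · rfl
    · ext x
      simp
  rw [this]
  exact (QuotientGroup.eq_one_iff _).2 (Subgroup.subset_normalClosure ⟨i, rfl⟩)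

/-- Substitution principle: if `σ` fixes `G` and the substituted system is solvable, so is `w`. -/
theorem SolvableOver.of_subst {I : Type*} {X Y : Type*}
    {w : I → Monoid.Coprod G (FreeGroup X)}
    (σ : Monoid.Coprod G (FreeGroup X) →* Monoid.Coprod G (FreeGroup Y))
    (hσ : σ.comp inl = inl) (h : SolvableOver (σ ∘ w)) : SolvableOver w := by
  rw [solvableOver_iff] at h ⊢
  intro g hg
  apply h g
  have hle : Subgroup.normalClosure (Set.range w) ≤
      (Subgroup.normalClosure (Set.range (σ ∘ w))).comap σ := by
    apply Subgroup.normalClosure_le_normal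
    rintro _ ⟨i, rfl⟩
    exact Subgroup.subset_normalClosure ⟨i, rfl⟩
  have := hle hg
  rw [Subgroup.mem_comap] at this
  have h2 : σ (inl g) = inl g := DFunLike.congr_fun hσ g
  rwa [h2] at this

end Vale.Agent.Lib.P174
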