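import Vale.Agent.Lib.P174.Basic

namespace Vale.Agent.Lib.P174

open Monoid.Coprod

universe u v

variable {G : Type u} [Group G]

/-- The monomial substitution `x ↦ ∏_j y_j ^ (B x j)` (fixing `G`). -/
noncomputable def monoSubst {X : Type*} {n : ℕ} (B : Matrix X (Fin n) ℤ) :
    Monoid.Coprod G (FreeGroup X) →* Monoid.Coprod G (FreeGroup (Fin n)) :=
  Monoid.Coprod.lift inl
    (inr.comp (FreeGroup.lift fun x => (List.ofFn fun j => (FreeGroup.of j) ^ (B x j)).prod))

theorem monoSubst_comp_inl {X : Type*} {n : ℕ} (B : Matrix X (Fin n) ℤ) :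
    (monoSubst (G := G) B).comp inl = inl := rfl

theorem expHom_comp_monoSubst {X : Type*} {n : ℕ} (B : Matrix X (Fin n) ℤ) :
    (expHom G (Fin n)).comp (monoSubst B) =
      (AddMonoidHom.toMultiplicative
        (Finsupp.linearCombination ℤ
          (fun x => Finsupp.equivFunOnFinite.symm (B x))).toAddMonoidHom).comp (expHom G X) := by
  apply Monoid.Coprod.hom_ext
  · ext g
    simp [expHom, monoSubst]
  · ext x
    simp only [expHom, monoSubst, MonoidHom.comp_apply, lift_apply_inr, FreeGroup.lift_apply_of,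
      map_list_prod, List.map_ofFn, List.prod_ofFn]
    simp [Function.comp_def, toAdd_prod, Finsupp.finsetSum_apply, Finsupp.single_apply]

theorem expMatrix_monoSubst {I X : Type*} [Fintype X] {n : ℕ} (B : Matrix X (Fin n) ℤ)
    (w : I → Monoid.Coprod G (FreeGroup X)) :
    expMatrix (monoSubst B ∘ w) = expMatrix w * B := by
  ext i j
  have h := DFunLike.congr_fun (expHom_comp_monoSubst (G := G) B) (w i)
  simp only [MonoidHom.comp_apply] at h
  simp only [expMatrix, Function.comp_apply, h, Matrix.mul_apply]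
  simp [Finsupp.linearCombination_apply, Finsupp.sum_fintype, Finsupp.finsetSum_apply]

theorem exists_cols_det_ne_zero {k : Type*} [Field k] {m n : ℕ} (A : Matrix (Fin m) (Fin n) k)
    (h : A.rank = m) : ∃ e : Fin m → Fin n, (A.submatrix id e).det ≠ 0 := by
  rw [Matrix.rank_eq_finrank_span_cols] at h
  obtain ⟨f, hf, -, hli⟩ := Submodule.exists_fun_fin_finrank_span_eq k (Set.range A.col)
  choose e' he' using hf
  refine ⟨fun i => e' (Fin.cast h.symm i), ?_⟩
  have hcol : (A.submatrix id fun i => e' (Fin.cast h.symm i)).col = f ∘ Fin.cast h.symm := by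
    funext i
    simp only [Function.comp_apply, ← he']
    rfl
  have hli2 : LinearIndependent k (A.submatrix id fun i => e' (Fin.cast h.symm i)).col := by
    rw [hcol]
    exact hli.comp _ (Fin.cast_injective _)
  rw [Matrix.linearIndependent_cols_iff_isUnit, Matrix.isUnit_iff_isUnit_det] at hli2
  exact hli2.ne_zero

/-- For an integer matrix of full row rank over `k` there is an integer matrix `B` with
`A * B = d • 1` and `d ≠ 0` in `k`. -/
theorem exists_right_scalar {k : Type*} [Field k] {m n : ℕ} (A : Matrix (Fin m) (Fin n) ℤ)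
    (h : (A.map (Int.cast : ℤ → k)).rank = m) :
    ∃ (B : Matrix (Fin n) (Fin m) ℤ) (d : ℤ), (d : k) ≠ 0 ∧ A * B = d • (1 : Matrix _ _ ℤ) := by
  obtain ⟨e, he⟩ := exists_cols_det_ne_zero _ h
  refine ⟨(Matrix.of fun j i => if j = e i then (1 : ℤ) else 0) * (A.submatrix id e).adjugate,
    (A.submatrix id e).det, ?_, ?_⟩
  · have : ((A.map (Int.cast : ℤ → k)).submatrix id e) =
        (A.submatrix id e).map (Int.castRingHom k) := rfl
    rw [this, ← RingHom.mapMatrix_apply, ← RingHom.map_det] at he
    simpa using he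
  · have hS : A * (Matrix.of fun j i => if j = e i then (1 : ℤ) else 0) = A.submatrix id e := by
      ext i j
      simp [Matrix.mul_apply]
    rw [← Matrix.mul_assoc, hS, Matrix.mul_adjugate]

/-- Every system nonsingular over `k` becomes, after a monomial substitution, a square system
with scalar exponent matrix `d • 1`, `d ≠ 0` in `k`. -/
theorem exists_scalar_subst {k : Type*} [Field k] {m n : ℕ}
    (w : Fin m → Monoid.Coprod G (FreeGroup (Fin n))) (h : NonsingularOver k w) :
    ∃ (B : Matrix (Fin n) (Fin m) ℤ) (d : ℤ), (d : k) ≠ 0 ∧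
      expMatrix (monoSubst B ∘ w) = d • (1 : Matrix _ _ ℤ) := by
  obtain ⟨B, d, hd, hB⟩ := exists_right_scalar (expMatrix w) h
  exact ⟨B, d, hd, by rw [expMatrix_monoSubst, hB]⟩

/-- Group-by-group reduction to scalar exponent matrices. -/
theorem howieOver_of_scalar (k : Type*) [Field k]
    (H : ∀ (n : ℕ) (d : ℤ) (w : Fin n → Monoid.Coprod G (FreeGroup (Fin n))), (d : k) ≠ 0 →
      expMatrix w = d • (1 : Matrix _ _ ℤ) → SolvableOver w) : HowieOver k G := by
  intro m n w hw
  obtain ⟨B, d, hd, hB⟩ := exists_scalar_subst w hw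
  exact SolvableOver.of_subst (monoSubst B) (monoSubst_comp_inl B) (H m d _ hd hB)

end Vale.Agent.Lib.P174
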