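import Vale.Agent.Lib.P174.Rows
import Vale.Agent.Lib.P174.Reduce

namespace Vale.Agent.Lib.P174

open Monoid.Coprod

universe u v

variable {G : Type u} [Group G] {Ω : Type v} [CommGroup Ω]

/-- Evaluation of an exponent vector at a tuple of elements of a commutative group. -/
noncomputable def evalq {X : Type*} (q : X → Ω) : Multiplicative (X →₀ ℤ) →* Ω where
  toFun v := (Multiplicative.toAdd v).prod fun j e => q j ^ e
  map_one' := Finsupp.prod_zero_index
  map_mul' _ _ := Finsupp.prod_add_index' (fun _ => zpow_zero _) (fun _ => zpow_add _)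

theorem lift_eq_evalq {X : Type*} (π : G →* Ω) (d : ℤ) (q : X → Ω)
    (y : Monoid.Coprod G (FreeGroup X)) :
    Monoid.Coprod.lift ((zpowGroupHom d).comp π) (FreeGroup.lift q) y =
      (Monoid.Coprod.lift π 1 y) ^ d * evalq q (expHom G X y) := by
  have h : Monoid.Coprod.lift ((zpowGroupHom d).comp π) (FreeGroup.lift q) =
      ((zpowGroupHom d).comp (Monoid.Coprod.lift π 1)) * ((evalq q).comp (expHom G X)) := by
    apply Monoid.Coprod.hom_ext
    · ext g
      simp [expHom, evalq]
    · ext x
      simp [expHom, evalq]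
  rw [h]
  rfl

/-- For a system with scalar exponent matrix `d • 1` the heights `q i = (π-content of w i)⁻¹`
solve the system in `Ω`, when `G` is mapped to `Ω` by `π ^ d`. -/
theorem lift_scalar_eq_one {n : ℕ} (π : G →* Ω) (d : ℤ)
    (w : Fin n → Monoid.Coprod G (FreeGroup (Fin n)))
    (hw : expMatrix w = d • (1 : Matrix (Fin n) (Fin n) ℤ)) (i : Fin n) :
    Monoid.Coprod.lift ((zpowGroupHom d).comp π)
      (FreeGroup.lift fun i => (Monoid.Coprod.lift π 1 (w i))⁻¹) (w i) = 1 := by
  rw [lift_eq_evalq]
  have hrow : Multiplicative.toAdd (expHom G (Fin n) (w i)) = Finsupp.single i d := by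
    ext j
    have h2 := congrFun (congrFun hw i) j
    simp only [expMatrix] at h2
    rw [h2]
    simp only [Matrix.smul_apply, Matrix.one_apply, Finsupp.single_apply]
    split_ifs <;> simp
  have hev : evalq (fun i => (Monoid.Coprod.lift π 1 (w i))⁻¹) (expHom G (Fin n) (w i)) =
      ((Monoid.Coprod.lift π 1 (w i))⁻¹) ^ d := by
    change (Multiplicative.toAdd (expHom G (Fin n) (w i))).prod _ = _
    rw [hrow, Finsupp.prod_single_index (zpow_zero _)]
  rw [hev]
  simp

/-- Extension principle: let `π : G → Ω` be a homomorphism to a commutative group such that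
elements of `k[Ω]` with nonzero augmentation are non-zero-divisors and `Ω` has no `d`-torsion for
`d` invertible in `k`.  If all `k`-nonsingular systems over `ker π` are solvable, the same holds
for `G`. -/
theorem howieOver_of_ker (k : Type*) [Field k] (π : G →* Ω)
    (hNZD : ∀ a : MonoidAlgebra k Ω, aug k Ω a ≠ 0 → a ∈ nonZeroDivisors (MonoidAlgebra k Ω))
    (htors : ∀ d : ℤ, (d : k) ≠ 0 → ∀ ω : Ω, ω ^ d = 1 → ω = 1)
    (hN : HowieOver k π.ker) : HowieOver k G := by
  apply howieOver_of_scalar k
  intro n d w hd hw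
  have hker : ((zpowGroupHom d).comp π).ker = π.ker := by
    ext g
    simp only [MonoidHom.mem_ker, MonoidHom.comp_apply, zpowGroupHom_apply]
    exact ⟨htors d hd _, fun h => by simp [h]⟩
  have hN' : HowieOver k ((zpowGroupHom d).comp π).ker := hker ▸ hN
  obtain ⟨γ, hγ⟩ := exists_gamma ((zpowGroupHom d).comp π)
  apply solvableOver_of_lifted ((zpowGroupHom d).comp π) γ hγ
    (fun i => (Monoid.Coprod.lift π 1 (w i))⁻¹) w
  · exact lift_scalar_eq_one π d w hw
  · exact hN'.solvable_of_linearIndependent _
      (lifted_rows_linearIndependent k hNZD _ γ hγ _ w d hd hw)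

end Vale.Agent.Lib.P174
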