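import Vale.Agent.Lib.P174.Closure

namespace Vale.Agent.Lib.P174

open Monoid.Coprod

universe u v

/-- The property passes to groups that embed. -/
theorem HowieOver.of_injective {k : Type*} [Field k] {G : Type u} {G' : Type v} [Group G]
    [Group G'] (φ : G →* G') (hφ : Function.Injective φ) (h : HowieOver k G') :
    HowieOver k G := by
  intro m n w hw g hg
  have hexp : (expHom G' (Fin n)).comp (Monoid.Coprod.map φ (MonoidHom.id _)) =
      expHom G (Fin n) := by
    apply Monoid.Coprod.hom_ext
    · ext g
      simp [expHom]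
    · ext x
      simp [expHom]
  have hmat : expMatrix (Monoid.Coprod.map φ (MonoidHom.id (FreeGroup (Fin n))) ∘ w) =
      expMatrix w := by
    ext i j
    have := DFunLike.congr_fun hexp (w i)
    simp only [MonoidHom.comp_apply] at this
    simp only [expMatrix, Function.comp_apply, this]
  have hns : NonsingularOver k (Monoid.Coprod.map φ (MonoidHom.id (FreeGroup (Fin n))) ∘ w) := by
    unfold NonsingularOver
    rw [hmat]
    exact hw
  have hle : Subgroup.normalClosure (Set.range w) ≤
      (Subgroup.normalClosure (Set.range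
        (Monoid.Coprod.map φ (MonoidHom.id (FreeGroup (Fin n))) ∘ w))).comap
        (Monoid.Coprod.map φ (MonoidHom.id _)) := by
    apply Subgroup.normalClosure_le_normal
    rintro _ ⟨i, rfl⟩
    exact Subgroup.subset_normalClosure ⟨i, rfl⟩
  have h1 := h m n _ hns (φ g) (hle hg)
  exact (injective_iff_map_eq_one φ).1 hφ g h1

variable {G : Type u} [Group G]

/-- Torsion-free commutative groups have unique products. -/
theorem uniqueProds_of_torsionFree (Ω : Type v) [CommGroup Ω] [IsMulTorsionFree Ω] :
    UniqueProds Ω := by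
  have h : UniqueSums (Additive Ω) :=
    UniqueSums.of_injective_addHom
      (DivisibleHull.coeAddMonoidHom (M := Additive Ω) : Additive Ω →ₙ+ DivisibleHull (Additive Ω))
      DivisibleHull.coe_injective inferInstance
  exact UniqueProds.of_injective_mulHom
    (MulEquiv.multiplicativeAdditive (H := Ω)).symm.toMulHom (Equiv.injective _) inferInstance

theorem nzd_of_torsionFree (k : Type*) [Field k] (Ω : Type v) [CommGroup Ω]
    [IsMulTorsionFree Ω] (a : MonoidAlgebra k Ω) (ha : aug k Ω a ≠ 0) :
    a ∈ nonZeroDivisors (MonoidAlgebra k Ω) := by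
  have := uniqueProds_of_torsionFree Ω
  apply mem_nonZeroDivisors_of_ne_zero
  rintro rfl
  exact ha (map_zero _)

/-- Extension by a torsion-free commutative group. -/
theorem howieOver_of_ker_torsionFree (k : Type*) [Field k] {Ω : Type v} [CommGroup Ω]
    [IsMulTorsionFree Ω] (π : G →* Ω) (hN : HowieOver k π.ker) : HowieOver k G := by
  apply howieOver_of_ker k π (nzd_of_torsionFree k Ω) _ hN
  · intro d hd ω hω
    have hd0 : d ≠ 0 := by
      rintro rfl
      exact hd (by simp)
    exact (zpow_left_injective hd0) (by simpa using hω)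

/-- In characteristic `p`, over a commutative group of exponent `p`, the `p`-th power of an
element of the group algebra is its augmentation. -/
theorem pow_p_eq_aug (p : ℕ) [Fact p.Prime] {Ω : Type v} [CommGroup Ω] (hΩ : ∀ ω : Ω, ω ^ p = 1)
    (a : MonoidAlgebra (ZMod p) Ω) :
    a ^ p = algebraMap (ZMod p) (MonoidAlgebra (ZMod p) Ω) (aug (ZMod p) Ω a) := by
  have : CharP (MonoidAlgebra (ZMod p) Ω) p :=
    charP_of_injective_algebraMap (algebraMap (ZMod p) (MonoidAlgebra (ZMod p) Ω)).injective p
  have h : frobenius (MonoidAlgebra (ZMod p) Ω) p =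
      (algebraMap (ZMod p) (MonoidAlgebra (ZMod p) Ω)).comp (aug (ZMod p) Ω).toRingHom := by
    apply MonoidAlgebra.ringHom_ext
    · intro r
      simp [frobenius_def, aug, MonoidAlgebra.single_pow, MonoidAlgebra.coe_algebraMap]
    · intro m
      simp [frobenius_def, aug, MonoidAlgebra.single_pow, hΩ]
  have h2 := DFunLike.congr_fun h a
  simpa [frobenius_def] using h2

/-- Extension by a commutative group of exponent `p`, for systems nonsingular modulo `p`. -/
theorem howieOver_of_ker_exponent_p (p : ℕ) [Fact p.Prime] {Ω : Type v} [CommGroup Ω]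
    (hΩ : ∀ ω : Ω, ω ^ p = 1) (π : G →* Ω) (hN : HowieOver (ZMod p) π.ker) :
    HowieOver (ZMod p) G := by
  apply howieOver_of_ker (ZMod p) π _ _ hN
  · intro a ha
    apply IsUnit.mem_nonZeroDivisors
    have hu : IsUnit (a ^ p) := by
      rw [pow_p_eq_aug p hΩ]
      exact (IsUnit.mk0 _ ha).map _
    exact (isUnit_pow_iff (Fact.out : p.Prime).ne_zero).1 hu
  · intro d hd ω hω
    have hcop : IsCoprime d (p : ℤ) := by
      rw [isCoprime_comm, Prime.coprime_iff_not_dvd (Nat.prime_iff_prime_int.1 Fact.out)]
      intro hdvd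
      exact hd ((ZMod.intCast_zmod_eq_zero_iff_dvd d p).2 hdvd)
    obtain ⟨x, y, hxy⟩ := hcop
    have : ω = ω ^ (x * d + y * (p : ℤ)) := by rw [hxy, zpow_one]
    rw [this, zpow_add, mul_comm x, mul_comm y, zpow_mul, zpow_mul, hω, zpow_natCast, hΩ]
    simp

/-- A system that is nonsingular modulo `p` is nonsingular over `ℚ`. -/
theorem NonsingularOver.rat_of_zmod (p : ℕ) [Fact p.Prime] {m n : ℕ}
    {w : Fin m → Monoid.Coprod G (FreeGroup (Fin n))} (h : NonsingularOver (ZMod p) w) :
    NonsingularOver ℚ w := by
  obtain ⟨B, d, hd, hB⟩ := exists_right_scalar (expMatrix w) h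
  have hd0 : (d : ℚ) ≠ 0 := by
    intro h0
    apply hd
    have : d = 0 := by exact_mod_cast h0
    simp [this]
  unfold NonsingularOver
  apply le_antisymm
  · simpa using Matrix.rank_le_card_height ((expMatrix w).map (Int.cast : ℤ → ℚ))
  · have h1 : ((expMatrix w).map (Int.castRingHom ℚ)) * (B.map (Int.castRingHom ℚ)) =
        (d : ℚ) • (1 : Matrix (Fin m) (Fin m) ℚ) := by
      rw [← Matrix.map_mul, hB]
      ext i j
      simp only [Matrix.map_apply, Matrix.smul_apply, Matrix.one_apply]
      split_ifs <;> simp
    have hu : IsUnit ((d : ℚ) • (1 : Matrix (Fin m) (Fin m) ℚ)) := by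
      rw [Matrix.isUnit_iff_isUnit_det]
      simp [hd0]
    have h2 := Matrix.rank_mul_le_left ((expMatrix w).map (Int.castRingHom ℚ))
      (B.map (Int.castRingHom ℚ))
    rw [h1, Matrix.rank_of_isUnit _ hu] at h2
    simpa using h2

theorem HowieOver.zmod_of_rat (p : ℕ) [Fact p.Prime] (h : HowieOver ℚ G) :
    HowieOver (ZMod p) G :=
  fun m n w hw => h m n w (hw.rat_of_zmod p)

/-- Extension by a finite `p`-group, for systems nonsingular modulo `p`. -/
theorem howieOver_of_card_quotient_eq_pow (p : ℕ) [Fact p.Prime] :
    ∀ (c : ℕ) (G : Type u) [Group G] (N : Subgroup G) [N.Normal],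
      Nat.card (G ⧸ N) = p ^ c → HowieOver (ZMod p) N → HowieOver (ZMod p) G := by
  intro c
  induction c with
  | zero =>
    intro G _ N _ hcard hN
    have htop : N = ⊤ := by
      rw [← Subgroup.index_eq_one]
      simpa [Subgroup.index] using hcard
    let φ : G →* N :=
      { toFun := fun g => ⟨g, htop ▸ Subgroup.mem_top g⟩
        map_one' := rfl
        map_mul' := fun _ _ => rfl }
    exact hN.of_injective φ (fun a b hab => congrArg Subtype.val hab)
  | succ c ih =>
    intro G _ N _ hcard hN
    have hp : p.Prime := Fact.out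
    have hfin : Finite (G ⧸ N) := by
      apply Nat.finite_of_card_ne_zero
      rw [hcard]
      exact pow_ne_zero _ hp.ne_zero
    obtain ⟨K, hK⟩ := Sylow.exists_subgroup_card_pow_prime (G := G ⧸ N) p (n := c)
      (by rw [hcard]; exact pow_dvd_pow p (Nat.le_succ c))
    have hKidx : K.index = p := by
      have h1 := K.card_mul_index
      rw [hK, hcard, pow_succ] at h1
      exact Nat.eq_of_mul_eq_mul_left (pow_pos hp.pos c) h1
    have hKn : K.Normal := by
      apply Subgroup.normal_of_index_eq_minFac_card
      rw [hKidx, hcard, Nat.pow_minFac (Nat.succ_ne_zero c), hp.minFac_eq]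
    let M : Subgroup G := K.comap (QuotientGroup.mk' N)
    have hMn : M.Normal := hKn.comap _
    have hMidx : M.index = p := by
      rw [Subgroup.index_comap_of_surjective _ (QuotientGroup.mk'_surjective N), hKidx]
    have hNM : N ≤ M := by
      intro x hx
      change QuotientGroup.mk' N x ∈ K
      have h1 : QuotientGroup.mk' N x = 1 := (QuotientGroup.eq_one_iff x).2 hx
      rw [h1]
      exact K.one_mem
    have hM : HowieOver (ZMod p) M := by
      apply ih M (N.subgroupOf M)
      · have h1 := Subgroup.relIndex_mul_index hNM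
        rw [hMidx] at h1
        have h2 : N.index = p ^ (c + 1) := hcard
        rw [h2, pow_succ] at h1
        exact Nat.eq_of_mul_eq_mul_right hp.pos h1
      · exact hN.of_injective (Subgroup.subgroupOfEquivOfLe hNM).toMonoidHom
          (Subgroup.subgroupOfEquivOfLe hNM).injective
    have hcardM : Nat.card (G ⧸ M) = p := hMidx
    let e : (G ⧸ M) ≃* Multiplicative (ZMod p) :=
      mulEquivOfPrimeCardEq (p := p) hcardM (by simp)
    let π : G →* Multiplicative (ZMod p) := e.toMonoidHom.comp (QuotientGroup.mk' M)
    have hker : π.ker = M := by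
      ext x
      simp [π]
    apply howieOver_of_ker_exponent_p p (Ω := Multiplicative (ZMod p)) _ π (hker ▸ hM)
    intro ω
    apply Multiplicative.toAdd.injective
    simp

end Vale.Agent.Lib.P174
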