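import Mathlib

namespace Vale.Agent.Lib.P174

open Finset

/-- The regular wreath product of two groups with unique products has unique products. -/
theorem uniqueProds_wreath (D Q : Type*) [Group D] [Group Q] [UniqueProds D] [UniqueProds Q] :
    UniqueProds (RegularWreathProduct D Q) where
  uniqueMul_of_nonempty {A B} hA hB := by
    classical
    let f : RegularWreathProduct D Q →ₙ* Q := (RegularWreathProduct.rightHom : _ →* Q).toMulHom
    obtain ⟨aH, haH, bH, hbH, hu⟩ :=
      UniqueProds.uniqueMul_of_nonempty (hA.image f) (hB.image f)
    rw [mem_image, ← filter_nonempty_iff] at haH hbH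
    let α : RegularWreathProduct D Q → (Q → D) := fun a => a.left
    let β : RegularWreathProduct D Q → (Q → D) := fun b => fun x => b.left (aH⁻¹ * x)
    obtain ⟨u, hu1, v, hv1, huv⟩ :=
      UniqueProds.uniqueMul_of_nonempty (haH.image α) (hbH.image β)
    obtain ⟨a0, ha0, rfl⟩ := mem_image.mp hu1
    obtain ⟨b0, hb0, rfl⟩ := mem_image.mp hv1
    have ha0' := mem_filter.mp ha0
    have hb0' := mem_filter.mp hb0
    refine ⟨a0, ha0'.1, b0, hb0'.1, UniqueMul.of_image_filter f ha0'.2 hb0'.2 hu ?_⟩
    intro a b ha hb he
    have ha' := mem_filter.mp ha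
    have hb' := mem_filter.mp hb
    have har : a.right = aH := ha'.2
    have ha0r : a0.right = aH := ha0'.2
    have hbr : b.right = bH := hb'.2
    have hb0r : b0.right = bH := hb0'.2
    have hl : α a * β b = α a0 * β b0 := by
      have h1 := congrArg RegularWreathProduct.left he
      rw [RegularWreathProduct.mul_left, RegularWreathProduct.mul_left, har, ha0r] at h1
      exact h1
    obtain ⟨h1, h2⟩ := huv (mem_image_of_mem α ha) (mem_image_of_mem β hb) hl
    constructor
    · ext x
      · exact congrFun h1 x
      · rw [har, ha0r]
    · ext x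
      · have := congrFun h2 (aH * x)
        simpa [β] using this
      · rw [hbr, hb0r]

end Vale.Agent.Lib.P174
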