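import Vale.Agent.Lib.P174.Fox
import Vale.Agent.Lib.P174.UPWreath
import Vale.Agent.Lib.P174.Instances

namespace Vale.Agent.Lib.P174

open Monoid.Coprod

universe u v

variable (G : Type u) [Group G] {X : Type v} {Λ : Type v} [Group Λ]

/-- Evaluation of a word at a tuple of group elements. -/
noncomputable def ev (q : X → Λ) (L : List (X × Bool)) : Λ := FreeGroup.lift q (FreeGroup.mk L)

theorem ev_nil (q : X → Λ) : ev q [] = 1 := rfl

theorem ev_cons_true (q : X → Λ) (y : X) (M : List (X × Bool)) :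
    ev q ((y, true) :: M) = q y * ev q M := by
  simp [ev, FreeGroup.lift_mk]

theorem ev_cons_false (q : X → Λ) (y : X) (M : List (X × Bool)) :
    ev q ((y, false) :: M) = (q y)⁻¹ * ev q M := by
  simp [ev, FreeGroup.lift_mk]

/-- The Fox derivative of a word in the free generators. -/
noncomputable def dW (q : X → Λ) (L : List (X × Bool)) : X →₀ MonoidAlgebra ℚ Λ :=
  foxD ℚ (1 : G →* Λ) q (inr (FreeGroup.mk L))

theorem dW_nil (q : X → Λ) : dW G q [] = 0 := by
  have h : (inr (FreeGroup.mk ([] : List (X × Bool))) : Monoid.Coprod G (FreeGroup X)) =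
      inl 1 := by
    rw [map_one]
    exact map_one inr
  rw [dW, h, foxD_inl]

theorem dW_cons_true (q : X → Λ) (y : X) (M : List (X × Bool)) :
    dW G q ((y, true) :: M) = Finsupp.single y 1 + MonoidAlgebra.single (q y) (1 : ℚ) • dW G q M := by
  have h : (inr (FreeGroup.mk ((y, true) :: M)) : Monoid.Coprod G (FreeGroup X)) =
      inr (FreeGroup.of y) * inr (FreeGroup.mk M) := by
    rw [← map_mul]
    rfl
  rw [dW, h, foxD_mul, foxD_of, lift_apply_inr, FreeGroup.lift_apply_of]
  rfl

theorem dW_cons_false (q : X → Λ) (y : X) (M : List (X × Bool)) :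
    dW G q ((y, false) :: M) = -Finsupp.single y (MonoidAlgebra.single (q y)⁻¹ (1 : ℚ)) +
      MonoidAlgebra.single (q y)⁻¹ (1 : ℚ) • dW G q M := by
  have h : (inr (FreeGroup.mk ((y, false) :: M)) : Monoid.Coprod G (FreeGroup X)) =
      (inr (FreeGroup.of y))⁻¹ * inr (FreeGroup.mk M) := by
    rw [← map_inv, ← map_mul]
    rfl
  have hinv : foxD ℚ (1 : G →* Λ) q (inr (FreeGroup.of y))⁻¹ =
      -Finsupp.single y (MonoidAlgebra.single (q y)⁻¹ (1 : ℚ)) := by
    have h1 := foxD_mul ℚ (1 : G →* Λ) q (inr (FreeGroup.of y))⁻¹ (inr (FreeGroup.of y))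
    have h0 : foxD ℚ (1 : G →* Λ) q (1 : Monoid.Coprod G (FreeGroup X)) = 0 := by
      have := foxD_inl ℚ (1 : G →* Λ) q (1 : G)
      rwa [map_one] at this
    rw [inv_mul_cancel, h0, foxD_of, map_inv, lift_apply_inr, FreeGroup.lift_apply_of,
      Finsupp.smul_single, smul_eq_mul, mul_one] at h1
    exact eq_neg_of_add_eq_zero_left h1.symm
  rw [dW, h, foxD_mul, hinv, map_inv, lift_apply_inr, FreeGroup.lift_apply_of]
  rfl

/-- The coefficient of `λ e_x` in an element of the free `ℚ[Λ]`-module on `X`. -/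
noncomputable def co (v : X →₀ MonoidAlgebra ℚ Λ) (x : X) (l : Λ) : ℚ := (v x).coeff l

theorem co_add (v v' : X →₀ MonoidAlgebra ℚ Λ) (x : X) (l : Λ) :
    co (v + v') x l = co v x l + co v' x l := by
  simp [co]

theorem co_neg (v : X →₀ MonoidAlgebra ℚ Λ) (x : X) (l : Λ) : co (-v) x l = -co v x l := by
  simp [co]

theorem co_smul (μ : Λ) (v : X →₀ MonoidAlgebra ℚ Λ) (x : X) (l : Λ) :
    co (MonoidAlgebra.single μ (1 : ℚ) • v) x l = co v x (μ⁻¹ * l) := by
  simp [co]

theorem co_single_nonneg (y : X) (μ : Λ) (x : X) (l : Λ) :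
    0 ≤ co (Finsupp.single y (MonoidAlgebra.single μ (1 : ℚ))) x l := by
  classical
  simp only [co, Finsupp.single_apply]
  split_ifs with h
  · rw [MonoidAlgebra.coeff_single, Finsupp.single_apply]
    split_ifs <;> norm_num
  · simp

theorem co_single_of_not (y : X) (μ : Λ) (x : X) (l : Λ) (h : ¬(y = x ∧ μ = l)) :
    co (Finsupp.single y (MonoidAlgebra.single μ (1 : ℚ))) x l = 0 := by
  classical
  simp only [co, Finsupp.single_apply]
  split_ifs with h1
  · rw [MonoidAlgebra.coeff_single, Finsupp.single_apply]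
    rw [if_neg]
    exact fun h2 => h ⟨h1, h2⟩
  · simp

theorem exists_neg_letter (q : X → Λ) (x : X) :
    ∀ (L : List (X × Bool)) (l : Λ), co (dW G q L) x l < 0 →
      ∃ u M, L = u ++ (x, false) :: M ∧ ev q u * (q x)⁻¹ = l
  | [], l, h => by
    rw [dW_nil] at h
    simp [co] at h
  | (y, true) :: M, l, h => by
    rw [dW_cons_true, co_add, co_smul, MonoidAlgebra.one_def] at h
    have h0 := co_single_nonneg y (1 : Λ) x l
    obtain ⟨u, M', rfl, hu⟩ := exists_neg_letter q x M ((q y)⁻¹ * l) (by linarith)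
    refine ⟨(y, true) :: u, M', rfl, ?_⟩
    rw [ev_cons_true, mul_assoc, hu]
    simp
  | (y, false) :: M, l, h => by
    by_cases hc : y = x ∧ (q y)⁻¹ = l
    · obtain ⟨rfl, rfl⟩ := hc
      exact ⟨[], M, rfl, by simp [ev_nil]⟩
    · rw [dW_cons_false, co_add, co_smul, co_neg, co_single_of_not y _ x l hc] at h
      obtain ⟨u, M', rfl, hu⟩ := exists_neg_letter q x M ((q y)⁻¹⁻¹ * l) (by linarith)
      refine ⟨(y, false) :: u, M', rfl, ?_⟩
      rw [ev_cons_false, mul_assoc, hu]
      simp

theorem exists_pos_letter (q : X → Λ) (x : X) :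
    ∀ (L : List (X × Bool)) (l : Λ), 0 < co (dW G q L) x l →
      ∃ u M, L = u ++ (x, true) :: M ∧ ev q u = l
  | [], l, h => by
    rw [dW_nil] at h
    simp [co] at h
  | (y, true) :: M, l, h => by
    by_cases hc : y = x ∧ (1 : Λ) = l
    · obtain ⟨rfl, rfl⟩ := hc
      exact ⟨[], M, rfl, by simp [ev_nil]⟩
    · rw [dW_cons_true, co_add, co_smul, MonoidAlgebra.one_def,
        co_single_of_not y _ x l hc] at h
      obtain ⟨u, M', rfl, hu⟩ := exists_pos_letter q x M ((q y)⁻¹ * l) (by linarith)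
      refine ⟨(y, true) :: u, M', rfl, ?_⟩
      rw [ev_cons_true, hu]
      simp
  | (y, false) :: M, l, h => by
    rw [dW_cons_false, co_add, co_smul, co_neg] at h
    have h0 := co_single_nonneg y (q y)⁻¹ x l
    obtain ⟨u, M', rfl, hu⟩ := exists_pos_letter q x M ((q y)⁻¹⁻¹ * l) (by linarith)
    refine ⟨(y, false) :: u, M', rfl, ?_⟩
    rw [ev_cons_false, hu]
    simp

theorem co_single_self (y : X) (μ : Λ) :
    co (Finsupp.single y (MonoidAlgebra.single μ (1 : ℚ))) y μ = 1 := by
  simp [co]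

/-- If the Fox derivative of a nonempty reduced word vanishes, a shorter nonempty reduced word
evaluates to `1`. -/
theorem exists_shorter (q : X → Λ) (L : List (X × Bool)) (hL : FreeGroup.IsReduced L)
    (hne : L ≠ []) (hd : dW G q L = 0) :
    ∃ u : List (X × Bool), u ≠ [] ∧ FreeGroup.IsReduced u ∧ u.length + 2 ≤ L.length ∧
      ev q u = 1 := by
  match L, hne with
  | (x, true) :: M, _ =>
    have h1 : co (dW G q M) x ((q x)⁻¹ * 1) < 0 := by
      have h2 := congrArg (fun v => co v x 1) hd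
      simp only [dW_cons_true, co_add, co_smul, MonoidAlgebra.one_def, co_single_self] at h2
      have h3 : co (0 : X →₀ MonoidAlgebra ℚ Λ) x 1 = 0 := by simp [co]
      rw [h3] at h2
      linarith
    obtain ⟨u, M', rfl, hu⟩ := exists_neg_letter G q x M _ h1
    refine ⟨u, ?_, (List.IsChain.tail hL).left_of_append, ?_, ?_⟩
    · rintro rfl
      rw [List.nil_append, FreeGroup.isReduced_cons_cons] at hL
      exact absurd (hL.1 rfl) (by simp)
    · simp only [List.length_cons, List.length_append]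
      omega
    · simpa using hu
  | (x, false) :: M, _ =>
    have h1 : 0 < co (dW G q M) x ((q x)⁻¹⁻¹ * (q x)⁻¹) := by
      have h2 := congrArg (fun v => co v x (q x)⁻¹) hd
      simp only [dW_cons_false, co_add, co_smul, co_neg, co_single_self] at h2
      have h3 : co (0 : X →₀ MonoidAlgebra ℚ Λ) x (q x)⁻¹ = 0 := by simp [co]
      rw [h3] at h2
      linarith
    obtain ⟨u, M', rfl, hu⟩ := exists_pos_letter G q x M _ h1
    refine ⟨u, ?_, (List.IsChain.tail hL).left_of_append, ?_, ?_⟩
    · rintro rfl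
      rw [List.nil_append, FreeGroup.isReduced_cons_cons] at hL
      exact absurd (hL.1 rfl) (by simp)
    · simp only [List.length_cons, List.length_append]
      omega
    · simpa using hu

/-- The next tuple in the Magnus tower. -/
noncomputable def nq (q : X → Λ) :
    X → RegularWreathProduct (Multiplicative (X →₀ MonoidAlgebra ℚ Λ)) Λ :=
  fun i => ⟨fun ω => Multiplicative.ofAdd (fvec ℚ (i, ω)), q i⟩

theorem ev_nq (q : X → Λ) (L : List (X × Bool)) :
    ev (nq q) L = foxW ℚ (1 : G →* Λ) q (inr (FreeGroup.mk L)) := by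
  rw [foxW, lift_apply_inr]
  rfl

theorem ev_nq_eq_one_iff (q : X → Λ) (L : List (X × Bool)) :
    ev (nq q) L = 1 ↔ ev q L = 1 ∧ dW G q L = 0 := by
  rw [ev_nq G]
  constructor
  · intro h
    constructor
    · have h1 := foxW_right ℚ (1 : G →* Λ) q (inr (FreeGroup.mk L))
      rw [h, lift_apply_inr] at h1
      exact h1.symm
    · rw [dW, foxD, h]
      rfl
  · rintro ⟨h1, h2⟩
    apply RegularWreathProduct.ext
    · funext τ
      have h3 := foxW_left ℚ (1 : G →* Λ) q (inr (FreeGroup.mk L)) τ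
      rw [dW, foxD] at h2
      rw [h2, smul_zero] at h3
      exact Multiplicative.toAdd.injective h3
    · rw [foxW_right, lift_apply_inr]
      exact h1

/-- All nonempty reduced words of length at most `s` evaluate nontrivially at `q`. -/
def Sep (q : X → Λ) (s : ℕ) : Prop :=
  ∀ u : List (X × Bool), u ≠ [] → FreeGroup.IsReduced u → u.length ≤ s → ev q u ≠ 1

theorem Sep.next {q : X → Λ} {s : ℕ} (h : Sep q s) : Sep (nq q) (s + 2) := by
  intro u hne hred hlen hev
  obtain ⟨-, hd⟩ := (ev_nq_eq_one_iff PUnit.{1} q u).1 hev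
  obtain ⟨u', hne', hred', hlen', hev'⟩ := exists_shorter PUnit.{1} q u hred hne hd
  exact h u' hne' hred' (by omega) hev'

theorem exists_tower (L : List (X × Bool)) (hL : FreeGroup.IsReduced L) (hne : L ≠ []) :
    ∀ (n s : ℕ) (Λ : Type v) [Group Λ] [UniqueProds Λ] (q : X → Λ), Sep q s →
      L.length ≤ s + 2 * n → ev q L = 1 →
      ∃ (Λ' : Type v) (_ : Group Λ') (_ : UniqueProds Λ') (q' : X → Λ'),
        ev q' L = 1 ∧ dW G q' L ≠ 0
  | 0, s, Λ, _, _, q, hs, hlen, hev => absurd hev (hs L hne hL (by omega))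
  | n + 1, s, Λ, _, _, q, hs, hlen, hev => by
    by_cases hd : dW G q L = 0
    · have hUP : UniqueProds (RegularWreathProduct (Multiplicative (X →₀ MonoidAlgebra ℚ Λ)) Λ) :=
        uniqueProds_wreath _ _
      exact exists_tower L hL hne n (s + 2) _ (nq q) hs.next (by omega)
        ((ev_nq_eq_one_iff G q L).2 ⟨hev, hd⟩)
    · exact ⟨Λ, inferInstance, inferInstance, q, hev, hd⟩

theorem lift_one_eq (f : FreeGroup X →* Λ) :
    Monoid.Coprod.lift (1 : G →* Λ) f = f.comp Monoid.Coprod.snd := by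
  apply Monoid.Coprod.hom_ext
  · ext g
    simp
  · ext x
    simp

theorem foxD_eq_snd (q : X → Λ) (w : Monoid.Coprod G (FreeGroup X)) :
    foxD ℚ (1 : G →* Λ) q w = foxD ℚ (1 : G →* Λ) q (inr (Monoid.Coprod.snd w)) := by
  have h : foxW ℚ (1 : G →* Λ) q = (foxW ℚ (1 : G →* Λ) q).comp (inr.comp Monoid.Coprod.snd) := by
    apply Monoid.Coprod.hom_ext
    · ext g <;> simp [foxW]
    · ext x <;> simp
  rw [foxD, h]
  rfl

variable {G}

/-- If all nonsingular finite systems over `G` are solvable, then every single equation over `G`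
whose content (the image of `w` in the free group `F(X)`) is nontrivial is solvable over `G`. -/
theorem solvableOver_of_content_ne_one (hG : HowieOver ℚ G) (w : Monoid.Coprod G (FreeGroup X))
    (hc : Monoid.Coprod.snd w ≠ 1) : SolvableOver (fun _ : Unit => w) := by
  classical
  set c := Monoid.Coprod.snd w with hcdef
  have hne : c.toWord ≠ [] := fun h => hc (FreeGroup.toWord_eq_nil_iff.1 h)
  have hUP : UniqueProds PUnit.{v + 1} :=
    ⟨fun {A B} hA hB => by
      obtain ⟨a, ha⟩ := hA
      obtain ⟨b, hb⟩ := hB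
      exact ⟨a, ha, b, hb, UniqueMul.of_subsingleton⟩⟩
  obtain ⟨Λ', _, _, q', hev, hd⟩ := exists_tower G c.toWord FreeGroup.isReduced_toWord hne
    c.toWord.length 0 PUnit.{v + 1} (fun _ => 1)
    (fun u hu _ hlen => absurd (List.length_eq_zero_iff.1 (Nat.le_zero.1 hlen)) hu) (by omega)
    (Subsingleton.elim _ _)
  rw [ev, FreeGroup.mk_toWord] at hev
  rw [dW, FreeGroup.mk_toWord] at hd
  apply solvableOver_of_fox ℚ (1 : G →* Λ') q' (fun _ : Unit => w)
  · intro _
    rw [lift_one_eq]
    exact hev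
  · rw [linearIndependent_iff]
    intro l hl
    rw [Finsupp.linearCombination_unique, foxD_eq_snd] at hl
    obtain ⟨x, hx⟩ := Finsupp.ne_iff.1 hd
    have h1 := DFunLike.congr_fun hl x
    rw [Finsupp.smul_apply, smul_eq_mul, Finsupp.zero_apply] at h1
    rw [Finsupp.zero_apply] at hx
    have h2 : l default = 0 := (mul_eq_zero.1 h1).resolve_right hx
    apply Finsupp.ext
    intro i
    rw [Subsingleton.elim i default, h2]
    rfl
  · exact hG.of_injective (1 : G →* Λ').ker.subtype Subtype.val_injective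

end Vale.Agent.Lib.P174
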