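import Vale.Agent.Lib.P174.Basic

namespace Vale.Agent.Lib.P174

open Monoid.Coprod

universe u v

variable {G : Type u} [Group G]

/-- The exponent vector of an element of `G ∗ F(X)`, read in the field `k`. -/
noncomputable def expRow (k : Type*) [Field k] {X : Type*}
    (y : Monoid.Coprod G (FreeGroup X)) : X →₀ k :=
  (Multiplicative.toAdd (expHom G X y)).mapRange (Int.cast : ℤ → k) Int.cast_zero

theorem mem_normalClosure_finite {Γ : Type*} [Group Γ] {I : Type*} (w : I → Γ) {y : Γ}
    (hy : y ∈ Subgroup.normalClosure (Set.range w)) :
    ∃ s : Finset I, y ∈ Subgroup.normalClosure (w '' (s : Set I)) := by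
  classical
  let K : Subgroup Γ :=
    { carrier := {y | ∃ s : Finset I, y ∈ Subgroup.normalClosure (w '' (s : Set I))}
      one_mem' := ⟨∅, Subgroup.one_mem _⟩
      mul_mem' := by
        rintro a b ⟨s, hs⟩ ⟨t, ht⟩
        refine ⟨s ∪ t, Subgroup.mul_mem _ ?_ ?_⟩
        · exact Subgroup.normalClosure_mono (Set.image_mono (by simp)) hs
        · exact Subgroup.normalClosure_mono (Set.image_mono (by simp)) ht
      inv_mem' := by
        rintro a ⟨s, hs⟩
        exact ⟨s, Subgroup.inv_mem _ hs⟩ }
  have hK : K.Normal := by
    constructor
    rintro a ⟨s, hs⟩ g
    exact ⟨s, Subgroup.normalClosure_normal.conj_mem a hs g⟩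
  have hle : Subgroup.normalClosure (Set.range w) ≤ K := by
    apply Subgroup.normalClosure_le_normal
    rintro _ ⟨i, rfl⟩
    exact ⟨{i}, Subgroup.subset_normalClosure ⟨i, by simp, rfl⟩⟩
  exact hle hy

/-- Restriction of variables to a finite set `X₀` (the other variables are sent to `1`). -/
noncomputable def restrictVars {X : Type*} [DecidableEq X] (X₀ : Finset X) :
    Monoid.Coprod G (FreeGroup X) →* Monoid.Coprod G (FreeGroup (Fin X₀.card)) :=
  Monoid.Coprod.lift inl
    (inr.comp (FreeGroup.lift fun x =>
      if h : x ∈ X₀ then FreeGroup.of (X₀.equivFin ⟨x, h⟩) else 1))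

theorem expHom_restrictVars {X : Type*} [DecidableEq X] (X₀ : Finset X)
    (y : Monoid.Coprod G (FreeGroup X)) (j : Fin X₀.card) :
    Multiplicative.toAdd (expHom G _ (restrictVars X₀ y)) j =
      Multiplicative.toAdd (expHom G X y) (X₀.equivFin.symm j : X) := by
  have hinj : Function.Injective (fun j : Fin X₀.card => (X₀.equivFin.symm j : X)) :=
    Subtype.val_injective.comp X₀.equivFin.symm.injective
  have h : (expHom G (Fin X₀.card)).comp (restrictVars X₀) =
      (AddMonoidHom.toMultiplicative (Finsupp.comapDomain.addMonoidHom hinj)).comp
        (expHom G X) := by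
    apply Monoid.Coprod.hom_ext
    · ext g
      simp [expHom, restrictVars]
    · ext x a
      by_cases hx : x ∈ X₀
      · simp only [expHom, restrictVars, MonoidHom.comp_apply, lift_apply_inr,
          FreeGroup.lift_apply_of, hx, dif_pos]
        simp only [AddMonoidHom.toMultiplicative_apply_apply, toAdd_ofAdd,
          Finsupp.comapDomain.addMonoidHom_apply, Finsupp.comapDomain_apply, Finsupp.single_apply]
        congr 1
        rw [eq_iff_iff]
        constructor
        · intro h
          rw [← h]
          simp
        · intro h
          have : (⟨x, hx⟩ : X₀) = X₀.equivFin.symm a := Subtype.ext h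
          rw [this]
          simp
      · simp only [expHom, restrictVars, MonoidHom.comp_apply, lift_apply_inr,
          FreeGroup.lift_apply_of, hx, dif_neg, not_false_eq_true, map_one]
        simp only [AddMonoidHom.toMultiplicative_apply_apply, toAdd_ofAdd,
          Finsupp.comapDomain.addMonoidHom_apply, Finsupp.comapDomain_apply, Finsupp.single_apply]
        have : x ≠ (X₀.equivFin.symm a : X) := by
          intro h
          exact hx (h ▸ (X₀.equivFin.symm a).2)
        simp [this]
  have h2 := DFunLike.congr_fun h y
  simp only [MonoidHom.comp_apply] at h2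
  rw [h2]
  simp

/-- The finite set of variables occurring (with nonzero exponent sum) in the relators of `s`. -/
noncomputable def varSupport {I X : Type*} [DecidableEq X]
    (w : I → Monoid.Coprod G (FreeGroup X)) (s : Finset I) : Finset X :=
  s.biUnion fun i => (Multiplicative.toAdd (expHom G X (w i))).support

/-- A finite subsystem of a system with linearly independent rows, restricted to the finitely many
relevant variables, is nonsingular. -/
theorem nonsingularOver_restrict {k : Type*} [Field k] {I X : Type*} [DecidableEq X]
    (w : I → Monoid.Coprod G (FreeGroup X))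
    (hli : LinearIndependent k fun i => expRow k (w i)) (s : Finset I) :
    NonsingularOver k (fun a : Fin s.card =>
      restrictVars (varSupport w s) (w (s.equivFin.symm a))) := by
  set X₀ : Finset X := varSupport w s with hX₀
  set w' : Fin s.card → Monoid.Coprod G (FreeGroup (Fin X₀.card)) :=
    fun a => restrictVars X₀ (w (s.equivFin.symm a)) with hw'
  unfold NonsingularOver
  have hrow : LinearIndependent k ((expMatrix w').map (Int.cast : ℤ → k)).row := by
    apply LinearIndependent.of_comp (Fintype.linearCombination k
      (fun j : Fin X₀.card => Finsupp.single (X₀.equivFin.symm j : X) (1 : k)))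
    have hfun : (⇑(Fintype.linearCombination k
        (fun j : Fin X₀.card => Finsupp.single (X₀.equivFin.symm j : X) (1 : k))) ∘
        ((expMatrix w').map (Int.cast : ℤ → k)).row) =
        fun a => expRow k (w (s.equivFin.symm a)) := by
      funext a
      ext x
      simp only [Function.comp_apply, Fintype.linearCombination_apply, Finsupp.finsetSum_apply,
        Finsupp.smul_apply, Finsupp.single_apply, Matrix.row_apply, Matrix.map_apply, expMatrix, w',
        expHom_restrictVars, expRow, Finsupp.mapRange_apply, smul_eq_mul, mul_ite, mul_one,
        mul_zero]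
      by_cases hx : x ∈ X₀
      · rw [Finset.sum_eq_single (X₀.equivFin ⟨x, hx⟩)]
        · simp
        · intro b _ hb
          rw [if_neg]
          intro h
          apply hb
          have : X₀.equivFin.symm b = ⟨x, hx⟩ := Subtype.ext h
          rw [← this]
          simp
        · simp
      · rw [Finset.sum_eq_zero]
        · have : x ∉ (Multiplicative.toAdd (expHom G X (w (s.equivFin.symm a)))).support := by
            intro h
            exact hx (Finset.mem_biUnion.2 ⟨_, (s.equivFin.symm a).2, h⟩)
          rw [Finsupp.notMem_support_iff] at this
          simp [this]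
        · intro b _
          rw [if_neg]
          intro h
          exact hx (h ▸ (X₀.equivFin.symm b).2)
    rw [hfun]
    exact hli.comp (fun a => (s.equivFin.symm a : I))
      (Subtype.val_injective.comp (Equiv.injective _))
  simpa using hrow.rank_matrix

/-- If all finite `k`-nonsingular systems over `G` are solvable, then so is every (possibly
infinite) system whose exponent rows are linearly independent over `k`. -/
theorem HowieOver.solvable_of_linearIndependent {k : Type*} [Field k] (hG : HowieOver k G)
    {I X : Type*} (w : I → Monoid.Coprod G (FreeGroup X))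
    (hli : LinearIndependent k fun i => expRow k (w i)) : SolvableOver w := by
  classical
  intro g hg
  obtain ⟨s, hs⟩ := mem_normalClosure_finite w hg
  apply hG _ _ _ (nonsingularOver_restrict w hli s) g
  have hle : Subgroup.normalClosure (w '' (s : Set I)) ≤
      (Subgroup.normalClosure (Set.range (fun a : Fin s.card =>
        restrictVars (varSupport w s) (w (s.equivFin.symm a))))).comap
        (restrictVars (varSupport w s)) := by
    apply Subgroup.normalClosure_le_normal
    rintro _ ⟨i, hi, rfl⟩
    apply Subgroup.subset_normalClosure
    exact ⟨s.equivFin ⟨i, hi⟩, by simp⟩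
  exact hle hs

end Vale.Agent.Lib.P174
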