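import Vale.Agent.Lib.P174.Amalgam
import Vale.Agent.Lib.P174.General

namespace Vale.Agent.Lib.P174

open Monoid.Coprod

universe u v

variable {G : Type u} [Group G] {Q : Type v} [Group Q]

/-- `Uses ν l y`: the element `y` of `G ∗ F(X)` is a product of elements of `ker ν`, elements of
`F(X)` and the letters listed in `l`. -/
inductive Uses {X : Type} (ν : G →* Q) : List G → Monoid.Coprod G (FreeGroup X) → Prop
  | one : Uses ν [] 1
  | ker (n : G) (hn : ν n = 1) : Uses ν [] (inl n)
  | letter (g : G) : Uses ν [g] (inl g)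
  | free (f : FreeGroup X) : Uses ν [] (inr f)
  | mul {l l' : List G} {y y' : Monoid.Coprod G (FreeGroup X)} :
      Uses ν l y → Uses ν l' y' → Uses ν (l ++ l') (y * y')

/-- `Der ν w l y`: the element `y` is derived from the relators `w i` by products, inverses and
conjugations, all the letters outside `ker ν` used in the process being listed in `l`. -/
inductive Der {I X : Type} (ν : G →* Q) (w : I → Monoid.Coprod G (FreeGroup X)) :
    List G → Monoid.Coprod G (FreeGroup X) → Prop
  | one : Der ν w [] 1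
  | rel (i : I) {l : List G} : Uses ν l (w i) → Der ν w l (w i)
  | relInv (i : I) {l : List G} : Uses ν l (w i) → Der ν w l (w i)⁻¹
  | mul {l l' : List G} {y y' : Monoid.Coprod G (FreeGroup X)} :
      Der ν w l y → Der ν w l' y' → Der ν w (l ++ l') (y * y')
  | conj (u : Monoid.Coprod G (FreeGroup X)) {l l' : List G}
      {y : Monoid.Coprod G (FreeGroup X)} :
      Uses ν l' u → Der ν w l y → Der ν w (l' ++ l) (u * y * u⁻¹)

theorem exists_uses {X : Type} (ν : G →* Q) (y : Monoid.Coprod G (FreeGroup X)) :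
    ∃ l, Uses ν l y := by
  induction y using Monoid.Coprod.induction_on with
  | inl g => exact ⟨_, Uses.letter g⟩
  | inr f => exact ⟨_, Uses.free f⟩
  | mul a b ha hb =>
    obtain ⟨l, hl⟩ := ha
    obtain ⟨l', hl'⟩ := hb
    exact ⟨_, Uses.mul hl hl'⟩

theorem Der.exists_inv {I X : Type} {ν : G →* Q} {w : I → Monoid.Coprod G (FreeGroup X)}
    {l : List G} {y : Monoid.Coprod G (FreeGroup X)} (h : Der ν w l y) :
    ∃ l', Der ν w l' y⁻¹ := by
  induction h with
  | one => exact ⟨[], by simpa using Der.one⟩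
  | rel i hu => exact ⟨_, Der.relInv i hu⟩
  | relInv i hu => exact ⟨_, by simpa using Der.rel i hu⟩
  | mul _ _ ih1 ih2 =>
    obtain ⟨l1, h1⟩ := ih1
    obtain ⟨l2, h2⟩ := ih2
    exact ⟨_, by simpa using Der.mul h2 h1⟩
  | conj u hu _ ih =>
    obtain ⟨l1, h1⟩ := ih
    exact ⟨_, by simpa [mul_assoc] using Der.conj u hu h1⟩

theorem exists_der_of_mem {I X : Type} (ν : G →* Q) (w : I → Monoid.Coprod G (FreeGroup X))
    {y : Monoid.Coprod G (FreeGroup X)} (hy : y ∈ Subgroup.normalClosure (Set.range w)) :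
    ∃ l, Der ν w l y := by
  let K : Subgroup (Monoid.Coprod G (FreeGroup X)) :=
    { carrier := {y | ∃ l, Der ν w l y}
      one_mem' := ⟨[], Der.one⟩
      mul_mem' := by
        rintro a b ⟨l, hl⟩ ⟨l', hl'⟩
        exact ⟨_, Der.mul hl hl'⟩
      inv_mem' := by
        rintro a ⟨l, hl⟩
        exact hl.exists_inv }
  have hK : K.Normal := by
    constructor
    rintro a ⟨l, hl⟩ g
    obtain ⟨l', hl'⟩ := exists_uses ν g
    exact ⟨_, Der.conj g hl' hl⟩
  have hle : Subgroup.normalClosure (Set.range w) ≤ K := by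
    apply Subgroup.normalClosure_le_normal
    rintro _ ⟨i, rfl⟩
    obtain ⟨l, hl⟩ := exists_uses ν (w i)
    exact ⟨l, Der.rel i hl⟩
  exact hle hy

theorem Der.mem {I X : Type} {ν : G →* Q} {w : I → Monoid.Coprod G (FreeGroup X)}
    {l : List G} {y : Monoid.Coprod G (FreeGroup X)} (h : Der ν w l y) :
    y ∈ Subgroup.normalClosure (Set.range w) := by
  induction h with
  | one => exact Subgroup.one_mem _
  | rel i _ => exact Subgroup.subset_normalClosure ⟨i, rfl⟩
  | relInv i _ => exact Subgroup.inv_mem _ (Subgroup.subset_normalClosure ⟨i, rfl⟩)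
  | mul _ _ ih1 ih2 => exact Subgroup.mul_mem _ ih1 ih2
  | conj u _ _ ih => exact Subgroup.normalClosure_normal.conj_mem _ ih u

/-- Enlarging or reindexing the family of relators. -/
theorem Der.mono {I I' X : Type} {ν : G →* Q} {w : I → Monoid.Coprod G (FreeGroup X)}
    (w' : I' → Monoid.Coprod G (FreeGroup X)) (hw : ∀ i, ∃ i', w' i' = w i)
    {l : List G} {y : Monoid.Coprod G (FreeGroup X)} (h : Der ν w l y) : Der ν w' l y := by
  induction h with
  | one => exact Der.one
  | rel i hu =>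
    obtain ⟨i', hi'⟩ := hw i
    rw [← hi'] at hu ⊢
    exact Der.rel i' hu
  | relInv i hu =>
    obtain ⟨i', hi'⟩ := hw i
    rw [← hi'] at hu ⊢
    exact Der.relInv i' hu
  | mul _ _ ih1 ih2 => exact Der.mul ih1 ih2
  | conj u hu _ ih => exact Der.conj u hu ih

/-- A derivation only uses finitely many relators. -/
theorem Der.exists_finset {I X : Type} {ν : G →* Q} {w : I → Monoid.Coprod G (FreeGroup X)}
    {l : List G} {y : Monoid.Coprod G (FreeGroup X)} (h : Der ν w l y) :
    ∃ s : Finset I, Der ν (fun i : s => w i) l y := by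
  classical
  induction h with
  | one => exact ⟨∅, Der.one⟩
  | rel i hu => exact ⟨{i}, Der.rel (w := fun j : ({i} : Finset I) => w j) ⟨i, by simp⟩ hu⟩
  | relInv i hu =>
    exact ⟨{i}, Der.relInv (w := fun j : ({i} : Finset I) => w j) ⟨i, by simp⟩ hu⟩
  | mul _ _ ih1 ih2 =>
    obtain ⟨s, hs⟩ := ih1
    obtain ⟨t, ht⟩ := ih2
    refine ⟨s ∪ t, Der.mul (hs.mono _ ?_) (ht.mono _ ?_)⟩
    · rintro ⟨i, hi⟩
      exact ⟨⟨i, Finset.mem_union_left _ hi⟩, rfl⟩
    · rintro ⟨i, hi⟩
      exact ⟨⟨i, Finset.mem_union_right _ hi⟩, rfl⟩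
  | conj u hu _ ih =>
    obtain ⟨s, hs⟩ := ih
    exact ⟨s, Der.conj u hu hs⟩

/-- Substituting the variables. -/
theorem Uses.subst {X Y : Type} {ν : G →* Q} (τ : FreeGroup X →* FreeGroup Y) {l : List G}
    {y : Monoid.Coprod G (FreeGroup X)} (h : Uses ν l y) :
    Uses ν l (Monoid.Coprod.lift inl (inr.comp τ) y) := by
  induction h with
  | one =>
    rw [map_one]
    exact Uses.one
  | ker n hn =>
    rw [lift_apply_inl]
    exact Uses.ker n hn
  | letter g =>
    rw [lift_apply_inl]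
    exact Uses.letter g
  | free f =>
    rw [lift_apply_inr]
    exact Uses.free (τ f)
  | mul _ _ ih1 ih2 =>
    rw [map_mul]
    exact Uses.mul ih1 ih2

theorem Der.subst {I X Y : Type} {ν : G →* Q} {w : I → Monoid.Coprod G (FreeGroup X)}
    (τ : FreeGroup X →* FreeGroup Y) {l : List G}
    {y : Monoid.Coprod G (FreeGroup X)} (h : Der ν w l y) :
    Der ν (Monoid.Coprod.lift inl (inr.comp τ) ∘ w) l
      (Monoid.Coprod.lift inl (inr.comp τ) y) := by
  induction h with
  | one =>
    rw [map_one]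
    exact Der.one
  | @rel i l hu =>
    have h1 : Uses ν l ((Monoid.Coprod.lift inl (inr.comp τ) ∘ w) i) := hu.subst τ
    exact Der.rel i h1
  | @relInv i l hu =>
    rw [map_inv]
    have h1 : Uses ν l ((Monoid.Coprod.lift inl (inr.comp τ) ∘ w) i) := hu.subst τ
    exact Der.relInv i h1
  | mul _ _ ih1 ih2 =>
    rw [map_mul]
    exact Der.mul ih1 ih2
  | conj u hu _ ih =>
    rw [map_mul, map_mul, map_inv]
    exact Der.conj _ (hu.subst τ) ih

/-- The natural map `S ∗ F(X) → G ∗ F(X)` for a subgroup `S` of `G`. -/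
noncomputable def jmap (S : Subgroup G) (X : Type) :
    Monoid.Coprod S (FreeGroup X) →* Monoid.Coprod G (FreeGroup X) :=
  Monoid.Coprod.map S.subtype (MonoidHom.id (FreeGroup X))

theorem jmap_injective (S : Subgroup G) (X : Type) : Function.Injective (jmap S X) :=
  map_subtype_injective S X

theorem Uses.pullback {X : Type} {ν : G →* Q} (S : Subgroup G) (hS : ν.ker ≤ S) {l : List G}
    {y : Monoid.Coprod G (FreeGroup X)} (h : Uses ν l y) (hl : ∀ g ∈ l, g ∈ S) :
    ∃ (l' : List S) (y' : Monoid.Coprod S (FreeGroup X)), jmap S X y' = y ∧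
      Uses (ν.comp S.subtype) l' y' ∧ l'.map Subtype.val = l := by
  induction h with
  | one => exact ⟨[], 1, map_one _, Uses.one, rfl⟩
  | ker n hn => exact ⟨[], inl ⟨n, hS hn⟩, rfl, Uses.ker _ hn, rfl⟩
  | letter g => exact ⟨[⟨g, hl g (by simp)⟩], inl ⟨g, hl g (by simp)⟩, rfl, Uses.letter _, rfl⟩
  | free f => exact ⟨[], inr f, rfl, Uses.free f, rfl⟩
  | mul _ _ ih1 ih2 =>
    obtain ⟨l1, y1, h1, hu1, hl1⟩ := ih1 (fun g hg => hl g (List.mem_append_left _ hg))
    obtain ⟨l2, y2, h2, hu2, hl2⟩ := ih2 (fun g hg => hl g (List.mem_append_right _ hg))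
    exact ⟨l1 ++ l2, y1 * y2, by rw [map_mul, h1, h2], Uses.mul hu1 hu2, by
      rw [List.map_append, hl1, hl2]⟩

/-- The relators with coefficients in `S`, as elements of `S ∗ F(X)`. -/
noncomputable def pullSys {I X : Type} (S : Subgroup G) (w : I → Monoid.Coprod G (FreeGroup X)) :
    {i // w i ∈ Set.range (jmap S X)} → Monoid.Coprod S (FreeGroup X) :=
  fun i => i.2.choose

theorem jmap_pullSys {I X : Type} (S : Subgroup G) (w : I → Monoid.Coprod G (FreeGroup X))
    (i : {i // w i ∈ Set.range (jmap S X)}) : jmap S X (pullSys S w i) = w i :=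
  i.2.choose_spec

theorem Der.pullback {I X : Type} {ν : G →* Q} {w : I → Monoid.Coprod G (FreeGroup X)}
    (S : Subgroup G) (hS : ν.ker ≤ S) {l : List G}
    {y : Monoid.Coprod G (FreeGroup X)} (h : Der ν w l y) (hl : ∀ g ∈ l, g ∈ S) :
    ∃ (l' : List S) (y' : Monoid.Coprod S (FreeGroup X)), jmap S X y' = y ∧
      Der (ν.comp S.subtype) (pullSys S w) l' y' ∧ l'.map Subtype.val = l := by
  induction h with
  | one => exact ⟨[], 1, map_one _, Der.one, rfl⟩
  | rel i hu =>
    obtain ⟨l', v, hv, hu', hl'⟩ := hu.pullback S hS hl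
    have hi : w i ∈ Set.range (jmap S X) := ⟨v, hv⟩
    have hv2 : pullSys S w ⟨i, hi⟩ = v := jmap_injective S X (by rw [jmap_pullSys, hv])
    refine ⟨l', v, hv, ?_, hl'⟩
    rw [← hv2] at hu' ⊢
    exact Der.rel _ hu'
  | relInv i hu =>
    obtain ⟨l', v, hv, hu', hl'⟩ := hu.pullback S hS hl
    have hi : w i ∈ Set.range (jmap S X) := ⟨v, hv⟩
    have hv2 : pullSys S w ⟨i, hi⟩ = v := jmap_injective S X (by rw [jmap_pullSys, hv])
    refine ⟨l', v⁻¹, by rw [map_inv, hv], ?_, hl'⟩
    rw [← hv2] at hu' ⊢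
    exact Der.relInv _ hu'
  | mul _ _ ih1 ih2 =>
    obtain ⟨l1, y1, h1, hu1, hl1⟩ := ih1 (fun g hg => hl g (List.mem_append_left _ hg))
    obtain ⟨l2, y2, h2, hu2, hl2⟩ := ih2 (fun g hg => hl g (List.mem_append_right _ hg))
    exact ⟨l1 ++ l2, y1 * y2, by rw [map_mul, h1, h2], Der.mul hu1 hu2, by
      rw [List.map_append, hl1, hl2]⟩
  | conj u hu _ ih =>
    obtain ⟨l1, y1, h1, hu1, hl1⟩ := hu.pullback S hS
      (fun g hg => hl g (List.mem_append_left _ hg))
    obtain ⟨l2, y2, h2, hu2, hl2⟩ := ih (fun g hg => hl g (List.mem_append_right _ hg))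
    exact ⟨l1 ++ l2, y1 * y2 * y1⁻¹, by rw [map_mul, map_mul, map_inv, h1, h2],
      Der.conj y1 hu1 hu2, by rw [List.map_append, hl1, hl2]⟩

theorem expHom_jmap (S : Subgroup G) (X : Type) (y : Monoid.Coprod S (FreeGroup X)) :
    expHom G X (jmap S X y) = expHom S X y := by
  have h : (expHom G X).comp (jmap S X) = expHom S X := by
    apply Monoid.Coprod.hom_ext
    · ext g
      simp [expHom, jmap]
    · ext x
      simp [expHom, jmap]
  exact DFunLike.congr_fun h y

theorem expRow_jmap (k : Type*) [Field k] (S : Subgroup G) (X : Type)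
    (y : Monoid.Coprod S (FreeGroup X)) : expRow k (jmap S X y) = expRow k y := by
  unfold expRow
  rw [expHom_jmap]

end Vale.Agent.Lib.P174
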