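import Vale.Agent.Lib.P174.Wreath

namespace Vale.Agent.Lib.P174

open Monoid.Coprod

universe u v

variable {G : Type u} [Group G] {Λ : Type v} [Group Λ] (k : Type*) [Field k] {X : Type*}

/-- The `k`-basis vector `λ⁻¹ e_x` of the free `k[Λ]`-module on `X`. -/
noncomputable def fvec (a : X × Λ) : X →₀ MonoidAlgebra k Λ :=
  Finsupp.single a.1 (MonoidAlgebra.single a.2⁻¹ 1)

/-- Abelianisation of `N ∗ F(X × Λ)` killing `N`, with values in the free `k[Λ]`-module on `X`. -/
noncomputable def fabR (N : Type*) [Group N] :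
    Monoid.Coprod N (FreeGroup (X × Λ)) →* Multiplicative (X →₀ MonoidAlgebra k Λ) :=
  Monoid.Coprod.lift 1 (FreeGroup.lift fun a => Multiplicative.ofAdd (fvec k a))

theorem linearCombination_expRow_fvec (N : Type*) [Group N]
    (y : Monoid.Coprod N (FreeGroup (X × Λ))) :
    Finsupp.linearCombination k (fvec k) (expRow k y) = Multiplicative.toAdd (fabR k N y) := by
  have h : (AddMonoidHom.toMultiplicative
      ((Finsupp.linearCombination k (fvec k : X × Λ → _)).toAddMonoidHom.comp
        (Finsupp.mapRange.addMonoidHom (Int.castAddHom k)))).comp (expHom N _) = fabR k N := by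
    apply Monoid.Coprod.hom_ext
    · ext g
      simp [expHom, fabR]
    · ext a
      simp [expHom, fabR]
  rw [← h]
  rfl

/-- The Fox homomorphism, with values in the wreath product of the free module by `Λ`. -/
noncomputable def foxW (P : G →* Λ) (q : X → Λ) :
    Monoid.Coprod G (FreeGroup X) →*
      RegularWreathProduct (Multiplicative (X →₀ MonoidAlgebra k Λ)) Λ :=
  Monoid.Coprod.lift (RegularWreathProduct.inl.comp P)
    (FreeGroup.lift fun i => ⟨fun ω => Multiplicative.ofAdd (fvec k (i, ω)), q i⟩)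

theorem wmap_fabR_comp_liftHom (P : G →* Λ) (γ : Λ → G)
    (hγ : ∀ g ω, P (γ (P g * ω)) = P g * P (γ ω)) (q : X → Λ) :
    (wmap (fabR k P.ker)).comp (liftHom P γ hγ q) = foxW k P q := by
  apply Monoid.Coprod.hom_ext
  · ext g <;> simp [liftHom, foxW, fabR]
  · ext x <;> simp [liftHom, foxW, fabR]

theorem foxW_right (P : G →* Λ) (q : X → Λ) (y : Monoid.Coprod G (FreeGroup X)) :
    (foxW k P q y).right = Monoid.Coprod.lift P (FreeGroup.lift q) y := by
  have h : RegularWreathProduct.rightHom.comp (foxW k P q) =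
      Monoid.Coprod.lift P (FreeGroup.lift q) := by
    apply Monoid.Coprod.hom_ext
    · ext g
      simp [foxW]
    · ext x
      simp [foxW]
  exact DFunLike.congr_fun h y

/-- Translation by `τ` on the wreath product of the free module by `Λ`. -/
noncomputable def fshift (τ : Λ) :
    RegularWreathProduct (Multiplicative (X →₀ MonoidAlgebra k Λ)) Λ →*
      RegularWreathProduct (Multiplicative (X →₀ MonoidAlgebra k Λ)) Λ where
  toFun a := ⟨fun x => Multiplicative.ofAdd
    ((MonoidAlgebra.single τ⁻¹ (1 : k)) • Multiplicative.toAdd (a.left (x * τ⁻¹))), a.right⟩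
  map_one' := by
    ext x
    · simp
    · simp
  map_mul' a b := by
    ext x
    · simp [mul_assoc, smul_add]
    · simp

theorem fshift_comp_foxW (P : G →* Λ) (q : X → Λ) (τ : Λ) :
    (fshift k τ).comp (foxW k P q) = foxW k P q := by
  apply Monoid.Coprod.hom_ext
  · ext g <;> simp [fshift, foxW]
  · ext x
    · simp [fshift, foxW, fvec]
    · simp [fshift, foxW]

theorem foxW_left (P : G →* Λ) (q : X → Λ) (y : Monoid.Coprod G (FreeGroup X)) (τ : Λ) :
    Multiplicative.toAdd ((foxW k P q y).left τ) =
      (MonoidAlgebra.single τ⁻¹ (1 : k)) • Multiplicative.toAdd ((foxW k P q y).left 1) := by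
  have h := DFunLike.congr_fun (fshift_comp_foxW k P q τ) y
  have h2 := congrFun (congrArg RegularWreathProduct.left h) τ
  simp only [MonoidHom.comp_apply, fshift, MonoidHom.coe_mk, OneHom.coe_mk,
    mul_inv_cancel] at h2
  rw [← h2]
  rfl

/-- The Fox derivative `G ∗ F(X) → k[Λ]^(X)` attached to `P : G → Λ` and `q : X → Λ`. -/
noncomputable def foxD (P : G →* Λ) (q : X → Λ) (y : Monoid.Coprod G (FreeGroup X)) :
    X →₀ MonoidAlgebra k Λ :=
  Multiplicative.toAdd ((foxW k P q y).left 1)

theorem foxD_inl (P : G →* Λ) (q : X → Λ) (g : G) : foxD k P q (inl g) = 0 := by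
  simp [foxD, foxW]

theorem foxD_of (P : G →* Λ) (q : X → Λ) (x : X) :
    foxD k P q (inr (FreeGroup.of x)) = Finsupp.single x 1 := by
  simp [foxD, foxW, fvec, MonoidAlgebra.one_def]

theorem foxD_mul (P : G →* Λ) (q : X → Λ) (y z : Monoid.Coprod G (FreeGroup X)) :
    foxD k P q (y * z) = foxD k P q y +
      MonoidAlgebra.single (Monoid.Coprod.lift P (FreeGroup.lift q) y) (1 : k) • foxD k P q z := by
  have h1 : Multiplicative.toAdd ((foxW k P q (y * z)).left 1) =
      Multiplicative.toAdd ((foxW k P q y).left 1) +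
        Multiplicative.toAdd ((foxW k P q z).left ((foxW k P q y).right⁻¹ * 1)) := by
    rw [map_mul, RegularWreathProduct.mul_left]
    rfl
  rw [foxD, h1, foxW_left k P q z, foxW_right]
  simp [foxD]

theorem single_inv_linearIndependent :
    LinearIndependent k (fun τ : Λ => MonoidAlgebra.single τ⁻¹ (1 : k)) := by
  have h := (MonoidAlgebra.basis Λ k).linearIndependent.comp (fun τ : Λ => τ⁻¹) inv_injective
  have hfun : (fun τ : Λ => MonoidAlgebra.single τ⁻¹ (1 : k)) =
      (⇑(MonoidAlgebra.basis Λ k) ∘ fun τ : Λ => τ⁻¹) := by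
    funext τ
    simp
  rw [hfun]
  exact h

/-- If the Fox rows of a system are left linearly independent over `k[Λ]`, the exponent rows of
the lifted system are linearly independent over `k`. -/
theorem lifted_rows_linearIndependent_of_fox {I : Type*} (P : G →* Λ) (γ : Λ → G)
    (hγ : ∀ g ω, P (γ (P g * ω)) = P g * P (γ ω)) (q : X → Λ)
    (w : I → Monoid.Coprod G (FreeGroup X))
    (hli : LinearIndependent (MonoidAlgebra k Λ) fun i => foxD k P q (w i)) :
    LinearIndependent k
      fun a : I × Λ => expRow k ((liftHom P γ hγ q (w a.1)).left a.2) := by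
  apply LinearIndependent.of_comp (Finsupp.linearCombination k (fvec k))
  have hfun : (⇑(Finsupp.linearCombination k (fvec k : X × Λ → _)) ∘
      fun a : I × Λ => expRow k ((liftHom P γ hγ q (w a.1)).left a.2)) =
      (fun p : Λ × I => MonoidAlgebra.single p.1⁻¹ (1 : k) • foxD k P q (w p.2)) ∘
        (Equiv.prodComm I Λ) := by
    funext a
    simp only [Function.comp_apply, linearCombination_expRow_fvec]
    have h1 : fabR k P.ker ((liftHom P γ hγ q (w a.1)).left a.2) =
        (foxW k P q (w a.1)).left a.2 := by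
      rw [← wmap_fabR_comp_liftHom k P γ hγ q]
      rfl
    rw [h1, foxW_left]
    rfl
  rw [hfun]
  have h2 : LinearIndependent k
      (fun p : Λ × I => MonoidAlgebra.single p.1⁻¹ (1 : k) • foxD k P q (w p.2)) :=
    linearIndependent_smul (R := k) (S := MonoidAlgebra k Λ) (A := X →₀ MonoidAlgebra k Λ)
      (b := fun τ : Λ => MonoidAlgebra.single τ⁻¹ (1 : k)) (c := fun i => foxD k P q (w i))
      (single_inv_linearIndependent k) hli
  exact h2.comp _ (Equiv.injective _)

/-- The covering criterion: let `φ = (P, q) : G ∗ F(X) → Λ` kill all the relators `w i`, and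
suppose the Fox rows of the `w i` are left linearly independent over `k[Λ]`.  If all
`k`-nonsingular finite systems over `ker P` are solvable, then `w` is solvable over `G`. -/
theorem solvableOver_of_fox {I : Type*} (P : G →* Λ) (q : X → Λ)
    (w : I → Monoid.Coprod G (FreeGroup X))
    (hq : ∀ i, Monoid.Coprod.lift P (FreeGroup.lift q) (w i) = 1)
    (hli : LinearIndependent (MonoidAlgebra k Λ) fun i => foxD k P q (w i))
    (hN : HowieOver k P.ker) : SolvableOver w := by
  obtain ⟨γ, hγ⟩ := exists_gamma P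
  exact solvableOver_of_lifted P γ hγ q w hq
    (hN.solvable_of_linearIndependent _ (lifted_rows_linearIndependent_of_fox k P γ hγ q w hli))

/-- `D` is the Fox derivative of `G ∗ F(X)` relative to `G`, with coefficients in `k[Λ]` through
`φ`: it kills `G`, sends the free generator `x` to the basis vector `e_x`, and satisfies the
product rule `D (u v) = D u + φ(u) D v`. -/
structure IsFoxDerivative (φ : Monoid.Coprod G (FreeGroup X) →* Λ)
    (D : Monoid.Coprod G (FreeGroup X) → (X →₀ MonoidAlgebra k Λ)) : Prop where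
  inl : ∀ g : G, D (inl g) = 0
  of : ∀ x : X, D (inr (FreeGroup.of x)) = Finsupp.single x 1
  mul : ∀ u v, D (u * v) = D u + MonoidAlgebra.single (φ u) (1 : k) • D v

theorem lift_comp_eq (φ : Monoid.Coprod G (FreeGroup X) →* Λ) :
    Monoid.Coprod.lift (φ.comp inl) (FreeGroup.lift fun x => φ (inr (FreeGroup.of x))) = φ := by
  apply Monoid.Coprod.hom_ext
  · ext g
    simp
  · ext x
    simp

theorem isFoxDerivative_foxD (φ : Monoid.Coprod G (FreeGroup X) →* Λ) :
    IsFoxDerivative k φ (foxD k (φ.comp inl) fun x => φ (inr (FreeGroup.of x))) where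
  inl g := foxD_inl k _ _ g
  of x := foxD_of k _ _ x
  mul u v := by
    rw [foxD_mul, lift_comp_eq]

variable {k}

theorem IsFoxDerivative.one {φ : Monoid.Coprod G (FreeGroup X) →* Λ}
    {D : Monoid.Coprod G (FreeGroup X) → (X →₀ MonoidAlgebra k Λ)} (h : IsFoxDerivative k φ D) :
    D 1 = 0 := by
  have h1 := h.inl 1
  rwa [map_one] at h1

theorem IsFoxDerivative.inv {φ : Monoid.Coprod G (FreeGroup X) →* Λ}
    {D : Monoid.Coprod G (FreeGroup X) → (X →₀ MonoidAlgebra k Λ)} (h : IsFoxDerivative k φ D)
    (u : Monoid.Coprod G (FreeGroup X)) :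
    D u⁻¹ = -(MonoidAlgebra.single (φ u⁻¹) (1 : k) • D u) := by
  have h1 := h.mul u⁻¹ u
  rw [inv_mul_cancel, h.one] at h1
  exact eq_neg_of_add_eq_zero_left h1.symm

theorem IsFoxDerivative.unique {φ : Monoid.Coprod G (FreeGroup X) →* Λ}
    {D D' : Monoid.Coprod G (FreeGroup X) → (X →₀ MonoidAlgebra k Λ)}
    (h : IsFoxDerivative k φ D) (h' : IsFoxDerivative k φ D') : D = D' := by
  funext y
  induction y using Monoid.Coprod.induction_on with
  | inl g => rw [h.inl, h'.inl]
  | inr f =>
    induction f using FreeGroup.induction_on with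
    | C1 => rw [map_one, h.one, h'.one]
    | of x => rw [h.of, h'.of]
    | inv_of x ih => rw [map_inv, h.inv, h'.inv, ih]
    | mul a b iha ihb => rw [map_mul, h.mul, h'.mul, iha, ihb]
  | mul a b iha ihb => rw [h.mul, h'.mul, iha, ihb]

end Vale.Agent.Lib.P174
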