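import Vale.Agent.Lib.P174.Der
import Vale.Agent.Lib.P174.Instances

namespace Vale.Agent.Lib.P174

open Monoid.Coprod

universe u v

variable {G : Type u} [Group G] {Q : Type v} [Group Q]

/-- A transversal adapted to an element `g` whose image has infinite order. -/
theorem exists_gamma_equivariant {Ω : Type*} [CommGroup Ω] (P : G →* Ω) (g : G)
    (hg : ∀ j : ℤ, (P g) ^ j = 1 → j = 0) :
    ∃ γ : Ω → G, (∀ g' ω, P (γ (P g' * ω)) = P g' * P (γ ω)) ∧
      ∀ ω, γ (P g * ω) = g * γ ω := by
  obtain ⟨γ₀, hγ₀⟩ := exists_gamma P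
  let τ : Ω → Ω := fun ω => (QuotientGroup.mk ω : Ω ⧸ Subgroup.zpowers (P g)).out
  have hj : ∀ ω, ∃ j : ℤ, ω = (P g) ^ j * τ ω := by
    intro ω
    obtain ⟨h, hh⟩ := QuotientGroup.mk_out_eq_mul (Subgroup.zpowers (P g)) ω
    obtain ⟨j, hj⟩ := Subgroup.mem_zpowers_iff.1 h.2
    refine ⟨-j, ?_⟩
    change ω = (P g) ^ (-j) * (QuotientGroup.mk ω : Ω ⧸ Subgroup.zpowers (P g)).out
    rw [hh, ← hj, zpow_neg, mul_comm ω, inv_mul_cancel_left]
  choose j hj using hj
  have hP : ∀ ω, P (g ^ j ω * γ₀ (τ ω)) = P (γ₀ ω) := by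
    intro ω
    have h1 := hγ₀ (g ^ j ω) (τ ω)
    rw [map_zpow, ← hj ω] at h1
    rw [map_mul, map_zpow, h1]
  refine ⟨fun ω => g ^ (j ω) * γ₀ (τ ω), ?_, ?_⟩
  · intro g' ω
    rw [hP, hP, hγ₀]
  · intro ω
    have hτ : τ (P g * ω) = τ ω := by
      change (QuotientGroup.mk (P g * ω) : Ω ⧸ Subgroup.zpowers (P g)).out =
        (QuotientGroup.mk ω : Ω ⧸ Subgroup.zpowers (P g)).out
      congr 1
      rw [QuotientGroup.eq]
      refine Subgroup.mem_zpowers_iff.2 ⟨-1, ?_⟩
      simp
    have hjj : j (P g * ω) = j ω + 1 := by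
      have h1 := hj (P g * ω)
      rw [hτ] at h1
      have h2 := hj ω
      have h3 : (P g) ^ (j (P g * ω) - (j ω + 1)) = 1 := by
        have h4 : (P g) ^ (j ω + 1) * τ ω = (P g) ^ (j (P g * ω)) * τ ω := by
          rw [← h1, zpow_add, zpow_one, mul_comm ((P g) ^ j ω), mul_assoc, ← h2]
        have h5 := mul_right_cancel h4
        rw [zpow_sub, ← h5, mul_inv_cancel]
      have := hg _ h3
      omega
    simp only [hτ, hjj, zpow_add, zpow_one]
    rw [← mul_assoc g, (Commute.zpow_left (Commute.refl g) (j ω)).eq]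

section lifting

variable {Ω : Type} [CommGroup Ω] {X : Type}

/-- The lift of the free part. -/
noncomputable def freeLift (q : X → Ω) :
    FreeGroup X →* RegularWreathProduct (FreeGroup (X × Ω)) Ω :=
  FreeGroup.lift fun i => ⟨fun ω => FreeGroup.of (i, ω), q i⟩

theorem liftHom_inr (P : G →* Ω) (γ : Ω → G)
    (hγ : ∀ g ω, P (γ (P g * ω)) = P g * P (γ ω)) (q : X → Ω) (f : FreeGroup X) :
    liftHom P γ hγ q (inr f) = wmap inr (freeLift q f) := by
  have h : (liftHom P γ hγ q).comp inr = (wmap inr).comp (freeLift q) := by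
    ext x <;> simp [liftHom, freeLift]
  exact DFunLike.congr_fun h f

theorem liftHom_inl (P : G →* Ω) (γ : Ω → G)
    (hγ : ∀ g ω, P (γ (P g * ω)) = P g * P (γ ω)) (q : X → Ω) (g : G) :
    liftHom P γ hγ q (inl g) = wmap inl (cocycleHom P γ hγ g) := rfl

theorem Uses.lift {ν : G →* Q} (P : G →* Ω) (γ : Ω → G)
    (hγ : ∀ g ω, P (γ (P g * ω)) = P g * P (γ ω)) (q : X → Ω)
    (hνP : ∀ n, ν n = 1 → P n = 1) (gs : G) (hkill : ∀ ω, γ (P gs * ω) = gs * γ ω)
    {l : List G} {y : Monoid.Coprod G (FreeGroup X)} (h : Uses ν l y) :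
    ∀ x : Ω, ∃ l' : List P.ker, Uses (ν.comp P.ker.subtype) l' ((liftHom P γ hγ q y).left x) ∧
      l'.length ≤ l.length ∧ (gs ∈ l → l'.length < l.length) := by
  induction h with
  | one =>
    intro x
    exact ⟨[], by rw [map_one]; exact Uses.one, by simp, by simp⟩
  | ker n hn =>
    intro x
    refine ⟨[], ?_, by simp, by simp⟩
    rw [liftHom_inl, wmap_left]
    apply Uses.ker
    change ν (((cocycleHom P γ hγ n).left x : P.ker) : G) = 1
    rw [cocycleHom_left_coe, hνP n hn]
    simp [hn]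
  | letter g =>
    intro x
    by_cases hg : g = gs
    · subst hg
      refine ⟨[], ?_, by simp, by simp⟩
      rw [liftHom_inl, wmap_left]
      have h1 : (cocycleHom P γ hγ g).left x = 1 := by
        apply Subtype.ext
        rw [cocycleHom_left_coe]
        have h2 := hkill ((P g)⁻¹ * x)
        rw [mul_inv_cancel_left] at h2
        rw [h2]
        simp [mul_assoc]
      rw [h1, map_one]
      exact Uses.one
    · refine ⟨[(cocycleHom P γ hγ g).left x], ?_, by simp, ?_⟩
      · rw [liftHom_inl, wmap_left]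
        exact Uses.letter _
      · intro h
        exact absurd (List.mem_singleton.1 h).symm hg
  | free f =>
    intro x
    refine ⟨[], ?_, by simp, by simp⟩
    rw [liftHom_inr, wmap_left]
    exact Uses.free _
  | mul _ _ ih1 ih2 =>
    intro x
    obtain ⟨l1, h1, hl1, hs1⟩ := ih1 x
    rename_i l₁ l₂ y₁ y₂ _ _
    obtain ⟨l2, h2, hl2, hs2⟩ := ih2 ((liftHom P γ hγ q y₁).right⁻¹ * x)
    refine ⟨l1 ++ l2, ?_, ?_, ?_⟩
    · rw [map_mul, RegularWreathProduct.mul_left]
      exact Uses.mul h1 h2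
    · simp only [List.length_append]
      omega
    · intro h
      simp only [List.length_append]
      rcases List.mem_append.1 h with h | h
      · have := hs1 h
        omega
      · have := hs2 h
        omega

theorem liftHom_right (P : G →* Ω) (γ : Ω → G)
    (hγ : ∀ g ω, P (γ (P g * ω)) = P g * P (γ ω)) (q : X → Ω)
    (y : Monoid.Coprod G (FreeGroup X)) :
    (liftHom P γ hγ q y).right = Monoid.Coprod.lift P (FreeGroup.lift q) y :=
  DFunLike.congr_fun (rightHom_comp_liftHom P γ hγ q) y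

theorem Der.lift_right {I : Type} {ν : G →* Q} (P : G →* Ω) (γ : Ω → G)
    (hγ : ∀ g ω, P (γ (P g * ω)) = P g * P (γ ω)) (q : X → Ω)
    {w : I → Monoid.Coprod G (FreeGroup X)}
    (hq : ∀ i, Monoid.Coprod.lift P (FreeGroup.lift q) (w i) = 1)
    {l : List G} {y : Monoid.Coprod G (FreeGroup X)} (h : Der ν w l y) :
    (liftHom P γ hγ q y).right = 1 := by
  rw [liftHom_right]
  have hle : Subgroup.normalClosure (Set.range w) ≤
      (Monoid.Coprod.lift P (FreeGroup.lift q)).ker := by
    apply Subgroup.normalClosure_le_normal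
    rintro _ ⟨i, rfl⟩
    exact hq i
  exact hle h.mem

theorem Der.lift {I : Type} {ν : G →* Q} (P : G →* Ω) (γ : Ω → G)
    (hγ : ∀ g ω, P (γ (P g * ω)) = P g * P (γ ω)) (q : X → Ω)
    (hνP : ∀ n, ν n = 1 → P n = 1) (gs : G) (hkill : ∀ ω, γ (P gs * ω) = gs * γ ω)
    {w : I → Monoid.Coprod G (FreeGroup X)}
    (hq : ∀ i, Monoid.Coprod.lift P (FreeGroup.lift q) (w i) = 1)
    {l : List G} {y : Monoid.Coprod G (FreeGroup X)} (h : Der ν w l y) :
    ∀ x : Ω, ∃ l' : List P.ker,
      Der (ν.comp P.ker.subtype) (fun a : I × Ω => (liftHom P γ hγ q (w a.1)).left a.2) l'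
        ((liftHom P γ hγ q y).left x) ∧
        l'.length ≤ l.length ∧ (gs ∈ l → l'.length < l.length) := by
  induction h with
  | one =>
    intro x
    exact ⟨[], by rw [map_one]; exact Der.one, by simp, by simp⟩
  | rel i hu =>
    intro x
    obtain ⟨l', h1, hl'⟩ := hu.lift P γ hγ q hνP gs hkill x
    exact ⟨l', Der.rel (w := fun a : I × Ω => (liftHom P γ hγ q (w a.1)).left a.2) (i, x) h1, hl'⟩
  | relInv i hu =>
    intro x
    obtain ⟨l', h1, hl'⟩ := hu.lift P γ hγ q hνP gs hkill x
    refine ⟨l', ?_, hl'⟩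
    have h2 : (liftHom P γ hγ q (w i)⁻¹).left x = ((liftHom P γ hγ q (w i)).left x)⁻¹ := by
      rw [map_inv, RegularWreathProduct.inv_left, liftHom_right, hq i]
      simp
    rw [h2]
    exact Der.relInv (w := fun a : I × Ω => (liftHom P γ hγ q (w a.1)).left a.2) (i, x) h1
  | mul _ _ ih1 ih2 =>
    intro x
    obtain ⟨l1, h1, hl1, hs1⟩ := ih1 x
    rename_i l₁ l₂ y₁ y₂ _ _
    obtain ⟨l2, h2, hl2, hs2⟩ := ih2 ((liftHom P γ hγ q y₁).right⁻¹ * x)
    refine ⟨l1 ++ l2, ?_, ?_, ?_⟩
    · rw [map_mul, RegularWreathProduct.mul_left]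
      exact Der.mul h1 h2
    · simp only [List.length_append]
      omega
    · intro h
      simp only [List.length_append]
      rcases List.mem_append.1 h with h | h
      · have := hs1 h
        omega
      · have := hs2 h
        omega
  | conj u hu hd ih =>
    intro x
    obtain ⟨l1, h1, hl1, hs1⟩ := hu.lift P γ hγ q hνP gs hkill x
    obtain ⟨l2, h2, hl2, hs2⟩ := ih ((liftHom P γ hγ q u).right⁻¹ * x)
    refine ⟨l1 ++ l2, ?_, ?_, ?_⟩
    · rename_i l₁ l₂ y₁
      have h3 : (liftHom P γ hγ q (u * y₁ * u⁻¹)).left x =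
          (liftHom P γ hγ q u).left x *
            (liftHom P γ hγ q y₁).left ((liftHom P γ hγ q u).right⁻¹ * x) *
            ((liftHom P γ hγ q u).left x)⁻¹ := by
        rw [map_mul, map_mul, map_inv, RegularWreathProduct.mul_left,
          RegularWreathProduct.mul_left, RegularWreathProduct.mul_right,
          hd.lift_right P γ hγ q hq, RegularWreathProduct.inv_left]
        simp
      rw [h3]
      exact Der.conj _ h1 h2
    · simp only [List.length_append]
      omega
    · intro h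
      simp only [List.length_append]
      rcases List.mem_append.1 h with h | h
      · have := hs1 h
        omega
      · have := hs2 h
        omega

end lifting

end Vale.Agent.Lib.P174
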