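import Vale.Agent.Lib.P174.Lift

namespace Vale.Agent.Lib.P174

open Monoid.Coprod

universe u v

/-- A finite subsystem of a system with independent rows can be brought, by a substitution of the
variables, to a square system with scalar exponent matrix. -/
theorem exists_scalar_form {k : Type*} [Field k] {G : Type u} [Group G] {I X : Type}
    (w : I → Monoid.Coprod G (FreeGroup X))
    (hli : LinearIndependent k fun i => expRow k (w i)) (s : Finset I) :
    ∃ (τ : FreeGroup X →* FreeGroup (Fin s.card)) (d : ℤ), (d : k) ≠ 0 ∧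
      expMatrix (fun a : Fin s.card =>
        Monoid.Coprod.lift inl (inr.comp τ) (w (s.equivFin.symm a))) =
        d • (1 : Matrix (Fin s.card) (Fin s.card) ℤ) := by
  classical
  obtain ⟨B, d, hd, hB⟩ := exists_scalar_subst _ (nonsingularOver_restrict w hli s)
  refine ⟨(FreeGroup.lift fun x => (List.ofFn fun j => (FreeGroup.of j) ^ (B x j)).prod).comp
    (FreeGroup.lift fun x => if h : x ∈ varSupport w s then
      FreeGroup.of ((varSupport w s).equivFin ⟨x, h⟩) else 1), d, hd, ?_⟩
  have hcomp : Monoid.Coprod.lift (inl : G →* Monoid.Coprod G (FreeGroup (Fin s.card)))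
      (inr.comp ((FreeGroup.lift fun x => (List.ofFn fun j => (FreeGroup.of j) ^ (B x j)).prod).comp
        (FreeGroup.lift fun x => if h : x ∈ varSupport w s then
          FreeGroup.of ((varSupport w s).equivFin ⟨x, h⟩) else 1))) =
      (monoSubst B).comp (restrictVars (varSupport w s)) := by
    apply Monoid.Coprod.hom_ext
    · rfl
    · rfl
  rw [hcomp]
  exact hB

/-- The statement proved by induction on the number of letters of a derivation. -/
def Claim (k : Type*) [Field k] (Q : Type v) [Group Q] (μ : ℕ) : Prop :=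
  ∀ (G : Type u) [Group G] (ν : G →* Q), HowieOver k ν.ker →
    ∀ (I X : Type) (w : I → Monoid.Coprod G (FreeGroup X)),
      LinearIndependent k (fun i => expRow k (w i)) →
      ∀ (l : List G) (g₀ : G), Der ν w l (inl g₀) → l.length < μ → g₀ = 1

theorem pullback_inl {G : Type u} [Group G] (S : Subgroup G) (X : Type)
    (y : Monoid.Coprod S (FreeGroup X)) (g₀ : G) (h : jmap S X y = inl g₀) :
    ∃ g : S, y = inl g ∧ (g : G) = g₀ := by
  have hfst : (Monoid.Coprod.fst : Monoid.Coprod G (FreeGroup X) →* G).comp (jmap S X) =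
      S.subtype.comp Monoid.Coprod.fst := by
    apply Monoid.Coprod.hom_ext
    · rfl
    · ext x
      simp [jmap]
  have h1 : ((Monoid.Coprod.fst y : S) : G) = g₀ := by
    have h2 := DFunLike.congr_fun hfst y
    simp only [MonoidHom.comp_apply, h, fst_apply_inl] at h2
    exact h2.symm
  refine ⟨Monoid.Coprod.fst y, ?_, h1⟩
  apply jmap_injective S X
  rw [h]
  change _ = inl ((Monoid.Coprod.fst y : S) : G)
  rw [h1]

theorem exists_letter_ne_one {G : Type u} [Group G] {Q : Type v} [Group Q] (ν : G →* Q)
    (l : List G) (K : Subgroup Q) (hK : K = Subgroup.closure {x | ∃ g ∈ l, ν g = x})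
    (f : K →* Multiplicative ℤ) (hf : Function.Surjective f) :
    ∃ g ∈ l, ∃ h : ν g ∈ K, f ⟨ν g, h⟩ ≠ 1 := by
  by_contra hcon
  push Not at hcon
  have hle : K ≤ (f.ker).map K.subtype := by
    conv_lhs => rw [hK]
    rw [Subgroup.closure_le]
    rintro x ⟨g, hg, rfl⟩
    have hmem : ν g ∈ K := by
      rw [hK]
      exact Subgroup.subset_closure ⟨g, hg, rfl⟩
    exact ⟨⟨ν g, hmem⟩, hcon g hg hmem, rfl⟩
  obtain ⟨x, hx⟩ := hf (Multiplicative.ofAdd 1)
  obtain ⟨x', hx', hxx⟩ := hle x.2
  have : x' = x := Subtype.ext hxx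
  rw [this] at hx'
  rw [SetLike.mem_coe, MonoidHom.mem_ker, hx] at hx'
  exact absurd hx' (by decide)

theorem claim_step (k : Type*) [Field k] {Q : Type v} [Group Q] (hQ : LocallyIndicable Q)
    (μ : ℕ) (ih : Claim.{u} k Q μ) : Claim.{u} k Q (μ + 1) := by
  classical
  intro G _ ν hN I X w hli l g₀ hder hlen
  set K : Subgroup Q := Subgroup.closure {x | ∃ g ∈ l, ν g = x} with hKdef
  let S : Subgroup G := K.comap ν
  have hS : ν.ker ≤ S := MonoidHom.ker_le_comap ν K
  have hl : ∀ g ∈ l, g ∈ S := fun g hg => Subgroup.subset_closure ⟨g, hg, rfl⟩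
  obtain ⟨l', y', hy', hder', hmap⟩ := hder.pullback S hS hl
  obtain ⟨g₁, rfl, hg₁⟩ := pullback_inl S X y' g₀ hy'
  have hli' : LinearIndependent k (fun i => expRow k (pullSys S w i)) := by
    have h1 : (fun i => expRow k (pullSys S w i)) = (fun i => expRow k (w i)) ∘ Subtype.val := by
      funext i
      simp only [Function.comp_apply]
      rw [← jmap_pullSys S w i, expRow_jmap]
    rw [h1]
    exact hli.comp _ Subtype.val_injective
  suffices h : g₁ = 1 by
    rw [← hg₁, h]
    rfl
  by_cases hK : K = ⊥
  · have hSker : S = ν.ker := by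
      change K.comap ν = ν.ker
      rw [hK]
      rfl
    have hNS : HowieOver k S := hSker ▸ hN
    exact hNS.solvable_of_linearIndependent _ hli' g₁ hder'.mem
  · have hFG : K.FG := by
      refine ⟨(l.map ν).toFinset, ?_⟩
      rw [hKdef]
      congr 1
      ext x
      simp
    obtain ⟨f, hf⟩ := hQ K hFG hK
    obtain ⟨gs, hgs, hgsK, hfgs⟩ := exists_letter_ne_one ν l K hKdef f hf
    let π : S →* Multiplicative ℤ := f.comp (ν.subgroupComap K)
    let gs' : S := ⟨gs, hl gs hgs⟩
    have hgs' : gs' ∈ l' := by
      have h1 : gs ∈ l'.map Subtype.val := hmap ▸ hgs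
      obtain ⟨a, ha, hav⟩ := List.mem_map.1 h1
      have h2 : a = gs' := Subtype.ext hav
      exact h2 ▸ ha
    have hπgs : π gs' ≠ 1 := hfgs
    obtain ⟨s, hs⟩ := hder'.exists_finset
    obtain ⟨τ, d, hd, hmat⟩ := exists_scalar_form (k := k) (pullSys S w) hli' s
    set w2 : Fin s.card → Monoid.Coprod S (FreeGroup (Fin s.card)) :=
      fun a => Monoid.Coprod.lift inl (inr.comp τ) (pullSys S w (s.equivFin.symm a)) with hw2
    have hder2 : Der (ν.comp S.subtype) w2 l' (inl g₁) := by
      have h1 := (hs.subst τ).mono w2 (by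
        rintro ⟨i, hi⟩
        exact ⟨s.equivFin ⟨i, hi⟩, by simp [hw2]⟩)
      rwa [lift_apply_inl] at h1
    have hd0 : d ≠ 0 := by
      rintro rfl
      exact hd (by simp)
    set P : S →* Multiplicative ℤ := (zpowGroupHom d).comp π with hP
    have hinf : ∀ j : ℤ, (P gs') ^ j = 1 → j = 0 := by
      intro j hj
      have h1 : (π gs') ^ (d * j) = 1 := by
        rw [zpow_mul]
        exact hj
      have h2 : (d * j) * Multiplicative.toAdd (π gs') = 0 := by
        have := congrArg Multiplicative.toAdd h1
        simpa using this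
      have h3 : Multiplicative.toAdd (π gs') ≠ 0 := by
        intro h0
        exact hπgs (Multiplicative.toAdd.injective h0)
      rcases mul_eq_zero.1 h2 with h4 | h4
      · rcases mul_eq_zero.1 h4 with h5 | h5
        · exact absurd h5 hd0
        · exact h5
      · exact absurd h4 h3
    obtain ⟨γ, hγ, hkill⟩ := exists_gamma_equivariant P gs' hinf
    have hq := lift_scalar_eq_one π d w2 hmat
    have hνP : ∀ n : S, (ν.comp S.subtype) n = 1 → P n = 1 := by
      intro n hn
      have h1 : ν.subgroupComap K n = 1 := Subtype.ext hn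
      simp [hP, π, h1]
    obtain ⟨l'', hder3, -, hlen3⟩ := hder2.lift P γ hγ
      (fun i => (Monoid.Coprod.lift π 1 (w2 i))⁻¹) hνP gs' hkill hq 1
    rw [liftHom_inl, wmap_left] at hder3
    have hrows := lifted_rows_linearIndependent k (nzd_of_torsionFree k (Multiplicative ℤ)) P γ hγ
      (fun i => (Monoid.Coprod.lift π 1 (w2 i))⁻¹) w2 d hd hmat
    have hlen4 := hlen3 hgs'
    have hlen' : l'.length = l.length := by
      rw [← hmap, List.length_map]
    have hN1 : HowieOver k ((ν.comp S.subtype).comp P.ker.subtype).ker := by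
      refine hN.of_injective
        ((S.subtype.comp (P.ker.subtype.comp
          ((ν.comp S.subtype).comp P.ker.subtype).ker.subtype)).codRestrict ν.ker
            (fun x => x.2)) ?_
      intro a b hab
      have h1 := congrArg Subtype.val hab
      exact Subtype.ext (Subtype.ext (Subtype.ext h1))
    have hc := ih P.ker ((ν.comp S.subtype).comp P.ker.subtype) hN1 _ _ _ hrows l'' _ hder3
      (by omega)
    have hPg : P g₁ = 1 := by
      have h1 := hder2.lift_right P γ hγ (fun i => (Monoid.Coprod.lift π 1 (w2 i))⁻¹) hq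
      rw [liftHom_inl] at h1
      exact h1
    have h4 := congrArg Subtype.val hc
    rw [cocycleHom_left_coe, hPg] at h4
    simp only [inv_one, one_mul, OneMemClass.coe_one] at h4
    have h5 : g₁ = γ 1 * ((γ 1)⁻¹ * g₁ * γ 1) * (γ 1)⁻¹ := by group
    rw [h5, h4]
    simp

theorem claim_all (k : Type*) [Field k] {Q : Type v} [Group Q] (hQ : LocallyIndicable Q) :
    ∀ μ, Claim.{u} k Q μ
  | 0 => by
    intro G _ ν _ I X w _ l g₀ _ h
    exact absurd h (Nat.not_lt_zero _)
  | μ + 1 => claim_step k hQ μ (claim_all k hQ μ)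

theorem NonsingularOver.linearIndependent {k : Type*} [Field k] {G : Type u} [Group G] {m n : ℕ}
    {w : Fin m → Monoid.Coprod G (FreeGroup (Fin n))} (hw : NonsingularOver k w) :
    LinearIndependent k (fun i => expRow k (w i)) := by
  have hrow : LinearIndependent k ((expMatrix w).map (Int.cast : ℤ → k)).row := by
    rw [linearIndependent_iff_card_eq_finrank_span, Set.finrank, ← Matrix.rank_eq_finrank_span_row]
    unfold NonsingularOver at hw
    rw [hw]
    simp
  apply LinearIndependent.of_comp (Finsupp.linearEquivFunOnFinite k k (Fin n)).toLinearMap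
  have hfun : (⇑(Finsupp.linearEquivFunOnFinite k k (Fin n)).toLinearMap ∘
      fun i => expRow k (w i)) = ((expMatrix w).map (Int.cast : ℤ → k)).row := by
    funext i j
    simp [expRow, expMatrix, Matrix.row_apply]
  rw [hfun]
  exact hrow

/-- Relative form of Howie's theorem: if `ν : G → Q` is a homomorphism to a locally indicable group
and all `k`-nonsingular finite systems over `ker ν` are solvable, the same holds for `G`. -/
theorem howieOver_of_locallyIndicable (k : Type*) [Field k] {G : Type u} [Group G] {Q : Type v}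
    [Group Q] (hQ : LocallyIndicable Q) (ν : G →* Q) (hN : HowieOver k ν.ker) :
    HowieOver k G := by
  intro m n w hw g hg
  obtain ⟨l, hl⟩ := exists_der_of_mem ν w hg
  exact claim_all k hQ (l.length + 1) G ν hN (Fin m) (Fin n) w hw.linearIndependent l g hl
    (Nat.lt_succ_self _)

end Vale.Agent.Lib.P174
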