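import Vale.Agent.Lib.P174.Wreath

namespace Vale.Agent.Lib.P174

open Monoid.Coprod

universe u v

variable {G : Type u} [Group G] {Ω : Type v} [CommGroup Ω] (k : Type*) [Field k] {n : ℕ}

/-- The standard `k`-basis vectors of `(k[Ω])^n`. -/
noncomputable def bvec (a : Fin n × Ω) : Fin n → MonoidAlgebra k Ω :=
  Pi.single a.1 (MonoidAlgebra.single a.2 1)

theorem bvec_linearIndependent : LinearIndependent k (bvec k : Fin n × Ω → _) := by
  have h := ((Pi.basis fun _ : Fin n => MonoidAlgebra.basis Ω k).linearIndependent.comp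
    (Equiv.sigmaEquivProd (Fin n) Ω).symm (Equiv.injective _))
  have hfun : (bvec k : Fin n × Ω → _) = (⇑(Pi.basis fun _ : Fin n => MonoidAlgebra.basis Ω k) ∘
      ⇑(Equiv.sigmaEquivProd (Fin n) Ω).symm) := by
    funext a
    simp [bvec, Pi.basis_apply]
  rw [hfun]
  exact h

/-- Abelianisation of `N ∗ F(Fin n × Ω)` killing `N`, with values in `(k[Ω])^n`. -/
noncomputable def abR (N : Type*) [Group N] :
    Monoid.Coprod N (FreeGroup (Fin n × Ω)) →* Multiplicative (Fin n → MonoidAlgebra k Ω) :=
  Monoid.Coprod.lift 1 (FreeGroup.lift fun a => Multiplicative.ofAdd (bvec k a))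

theorem linearCombination_expRow (N : Type*) [Group N]
    (y : Monoid.Coprod N (FreeGroup (Fin n × Ω))) :
    Finsupp.linearCombination k (bvec k) (expRow k y) = Multiplicative.toAdd (abR k N y) := by
  have h : (AddMonoidHom.toMultiplicative
      ((Finsupp.linearCombination k (bvec k : Fin n × Ω → _)).toAddMonoidHom.comp
        (Finsupp.mapRange.addMonoidHom (Int.castAddHom k)))).comp (expHom N _) = abR k N := by
    apply Monoid.Coprod.hom_ext
    · ext g
      simp [expHom, abR]
    · ext a
      simp [expHom, abR]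
  rw [← h]
  rfl

/-- The Fox-type homomorphism recording exponents with their `Ω`-heights. -/
noncomputable def foxHom (P : G →* Ω) (q : Fin n → Ω) :
    Monoid.Coprod G (FreeGroup (Fin n)) →*
      RegularWreathProduct (Multiplicative (Fin n → MonoidAlgebra k Ω)) Ω :=
  Monoid.Coprod.lift (RegularWreathProduct.inl.comp P)
    (FreeGroup.lift fun i => ⟨fun ω => Multiplicative.ofAdd (bvec k (i, ω)), q i⟩)

theorem wmap_abR_comp_liftHom (P : G →* Ω) (γ : Ω → G)
    (hγ : ∀ g ω, P (γ (P g * ω)) = P g * P (γ ω)) (q : Fin n → Ω) :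
    (wmap (abR k P.ker)).comp (liftHom P γ hγ q) = foxHom k P q := by
  apply Monoid.Coprod.hom_ext
  · ext g <;> simp [liftHom, foxHom, abR]
  · ext x <;> simp [liftHom, foxHom, abR]

/-- Translation by `τ` on the wreath product of `(k[Ω])^n` by `Ω`. -/
noncomputable def shiftHom (τ : Ω) :
    RegularWreathProduct (Multiplicative (Fin n → MonoidAlgebra k Ω)) Ω →*
      RegularWreathProduct (Multiplicative (Fin n → MonoidAlgebra k Ω)) Ω where
  toFun a := ⟨fun x => Multiplicative.ofAdd
    ((MonoidAlgebra.single τ (1 : k)) • Multiplicative.toAdd (a.left (τ⁻¹ * x))), a.right⟩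
  map_one' := by
    ext x
    · simp
    · simp
  map_mul' a b := by
    ext x
    · simp [mul_left_comm, smul_add]
    · simp

theorem shiftHom_comp_foxHom (P : G →* Ω) (q : Fin n → Ω) (τ : Ω) :
    (shiftHom k τ).comp (foxHom k P q) = foxHom k P q := by
  apply Monoid.Coprod.hom_ext
  · ext g <;> simp [shiftHom, foxHom]
  · ext x
    · simp [shiftHom, foxHom, bvec, ← Pi.single_smul]
    · simp [shiftHom, foxHom]

theorem foxHom_left (P : G →* Ω) (q : Fin n → Ω) (y : Monoid.Coprod G (FreeGroup (Fin n)))
    (τ : Ω) : Multiplicative.toAdd ((foxHom k P q y).left τ) =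
      (MonoidAlgebra.single τ (1 : k)) • Multiplicative.toAdd ((foxHom k P q y).left 1) := by
  have h := DFunLike.congr_fun (shiftHom_comp_foxHom k P q τ) y
  have h2 := congrFun (congrArg RegularWreathProduct.left h) τ
  simp only [MonoidHom.comp_apply, shiftHom, MonoidHom.coe_mk, OneHom.coe_mk,
    inv_mul_cancel] at h2
  rw [← h2]
  rfl

/-- Constant functions give a homomorphism `B × Q → B ≀ Q`. -/
def constHom {B Q : Type*} [Group B] [Group Q] : B × Q →* RegularWreathProduct B Q where
  toFun a := ⟨fun _ => a.1, a.2⟩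
  map_one' := rfl
  map_mul' a b := by ext <;> simp

/-- Exponent vector read in `k`, as a homomorphism. -/
noncomputable def castExp (G : Type u) [Group G] (n : ℕ) :
    Monoid.Coprod G (FreeGroup (Fin n)) →* Multiplicative (Fin n → k) :=
  Monoid.Coprod.lift 1 (FreeGroup.lift fun j => Multiplicative.ofAdd (Pi.single j 1))

theorem castExp_apply (y : Monoid.Coprod G (FreeGroup (Fin n))) (j : Fin n) :
    Multiplicative.toAdd (castExp k G n y) j =
      ((Multiplicative.toAdd (expHom G (Fin n) y) j : ℤ) : k) := by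
  have h : castExp k G n = (AddMonoidHom.toMultiplicative
      (AddMonoidHom.mk' (fun v : Fin n →₀ ℤ => fun j => ((v j : ℤ) : k))
        (by intro a b; ext j; simp))).comp (expHom G (Fin n)) := by
    apply Monoid.Coprod.hom_ext
    · ext g
      simp [expHom, castExp]
    · ext a j
      simp [expHom, castExp, Pi.single_apply, Finsupp.single_apply, eq_comm]
  rw [h]
  rfl

/-- The augmentation `k[Ω] → k`. -/
noncomputable def aug (Ω : Type v) [CommGroup Ω] : MonoidAlgebra k Ω →ₐ[k] k :=
  MonoidAlgebra.lift k k Ω 1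

theorem aug_foxHom (P : G →* Ω) (q : Fin n → Ω) (y : Monoid.Coprod G (FreeGroup (Fin n)))
    (x : Ω) (j : Fin n) :
    aug k Ω (Multiplicative.toAdd ((foxHom k P q y).left x) j) =
      ((Multiplicative.toAdd (expHom G (Fin n) y) j : ℤ) : k) := by
  have h : (wmap (AddMonoidHom.toMultiplicative
      ((aug k Ω).toLinearMap.compLeft (Fin n)).toAddMonoidHom)).comp (foxHom k P q) =
      constHom.comp ((castExp k G n).prod (Monoid.Coprod.lift P (FreeGroup.lift q))) := by
    apply Monoid.Coprod.hom_ext
    · ext g <;> simp [foxHom, constHom, castExp]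
    · ext i
      · simp [foxHom, constHom, castExp, bvec, Pi.single_apply, aug, apply_ite]
      · simp [foxHom, constHom, castExp]
  have h2 := congrFun (congrArg RegularWreathProduct.left (DFunLike.congr_fun h y)) x
  have h3 := congrFun (congrArg Multiplicative.toAdd h2) j
  rw [← castExp_apply]
  exact h3

theorem lifted_rows_linearIndependent
    (hNZD : ∀ a : MonoidAlgebra k Ω, aug k Ω a ≠ 0 → a ∈ nonZeroDivisors (MonoidAlgebra k Ω))
    (P : G →* Ω) (γ : Ω → G) (hγ : ∀ g ω, P (γ (P g * ω)) = P g * P (γ ω)) (q : Fin n → Ω)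
    (w : Fin n → Monoid.Coprod G (FreeGroup (Fin n))) (d : ℤ) (hd : (d : k) ≠ 0)
    (hw : expMatrix w = d • (1 : Matrix (Fin n) (Fin n) ℤ)) :
    LinearIndependent k
      fun a : Fin n × Ω => expRow k ((liftHom P γ hγ q (w a.1)).left a.2) := by
  classical
  let J : Matrix (Fin n) (Fin n) (MonoidAlgebra k Ω) :=
    Matrix.of fun i => Multiplicative.toAdd ((foxHom k P q (w i)).left 1)
  have hdet : J.det ∈ nonZeroDivisors (MonoidAlgebra k Ω) := by
    apply hNZD
    have h1 : aug k Ω J.det = ((aug k Ω).toRingHom.mapMatrix J).det := by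
      rw [← RingHom.map_det]
      rfl
    have hJ : (aug k Ω).toRingHom.mapMatrix J = (d : k) • (1 : Matrix (Fin n) (Fin n) k) := by
      ext i j
      have h2 := congrFun (congrFun hw i) j
      simp only [expMatrix] at h2
      have h3 : (aug k Ω).toRingHom.mapMatrix J i j =
          aug k Ω (Multiplicative.toAdd ((foxHom k P q (w i)).left 1) j) := rfl
      rw [h3, aug_foxHom, h2]
      simp only [Matrix.smul_apply, Matrix.one_apply]
      split_ifs <;> simp
    rw [h1, hJ, Matrix.det_smul, Matrix.det_one]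
    simp [hd]
  let f : (Fin n → MonoidAlgebra k Ω) →ₗ[k] (Fin n → MonoidAlgebra k Ω) :=
    (Matrix.vecMulLinear J).restrictScalars k
  have hker : LinearMap.ker f = ⊥ := by
    rw [LinearMap.ker_eq_bot']
    intro v hv
    have hv' : Matrix.vecMul v J = 0 := hv
    have h1 : Matrix.vecMul v (J * J.adjugate) = 0 := by
      rw [← Matrix.vecMul_vecMul, hv', Matrix.zero_vecMul]
    rw [Matrix.mul_adjugate, Matrix.vecMul_smul, Matrix.vecMul_one] at h1
    funext i
    have hi := congrFun h1 i
    simp only [Pi.smul_apply, smul_eq_mul, Pi.zero_apply] at hi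
    exact (mem_nonZeroDivisors_iff.1 hdet).1 _ hi
  apply LinearIndependent.of_comp (Finsupp.linearCombination k (bvec k))
  have hfun : (⇑(Finsupp.linearCombination k (bvec k : Fin n × Ω → _)) ∘
      fun a : Fin n × Ω => expRow k ((liftHom P γ hγ q (w a.1)).left a.2)) = f ∘ bvec k := by
    funext a
    simp only [Function.comp_apply, linearCombination_expRow]
    have h1 : abR k P.ker ((liftHom P γ hγ q (w a.1)).left a.2) =
        (foxHom k P q (w a.1)).left a.2 := by
      rw [← wmap_abR_comp_liftHom k P γ hγ q]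
      rfl
    rw [h1, foxHom_left]
    change _ = Matrix.vecMul (bvec k a) J
    rw [bvec, Matrix.single_vecMul]
    rfl
  rw [hfun]
  exact (bvec_linearIndependent k).map' f hker

end Vale.Agent.Lib.P174
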