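import Vale.Agent.Lib.P174.General

namespace Vale.Agent.Lib.P174

open Monoid.Coprod

universe u v

/-- Functoriality of the regular wreath product in the base group. -/
def wmap {D D' Q : Type*} [Group D] [Group D'] [Group Q] (θ : D →* D') :
    RegularWreathProduct D Q →* RegularWreathProduct D' Q where
  toFun a := ⟨fun x => θ (a.left x), a.right⟩
  map_one' := by ext <;> simp
  map_mul' a b := by ext <;> simp

@[simp] theorem wmap_left {D D' Q : Type*} [Group D] [Group D'] [Group Q] (θ : D →* D')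
    (a : RegularWreathProduct D Q) (x : Q) : (wmap θ a).left x = θ (a.left x) := rfl

@[simp] theorem wmap_right {D D' Q : Type*} [Group D] [Group D'] [Group Q] (θ : D →* D')
    (a : RegularWreathProduct D Q) : (wmap θ a).right = a.right := rfl

variable {G : Type u} [Group G] {Ω : Type v} [Group Ω]

theorem exists_gamma (P : G →* Ω) :
    ∃ γ : Ω → G, ∀ g ω, P (γ (P g * ω)) = P g * P (γ ω) := by
  have h : ∀ ω : Ω, ∃ g : G, P g = ω * ((QuotientGroup.mk ω⁻¹ : Ω ⧸ P.range).out) := by
    intro ω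
    obtain ⟨h, hh⟩ := QuotientGroup.mk_out_eq_mul P.range ω⁻¹
    obtain ⟨g, hg⟩ := h.2
    refine ⟨g, ?_⟩
    rw [hh, hg]
    simp
  choose γ hγ using h
  refine ⟨γ, fun g ω => ?_⟩
  rw [hγ, hγ]
  have : (QuotientGroup.mk (P g * ω)⁻¹ : Ω ⧸ P.range) = QuotientGroup.mk ω⁻¹ := by
    rw [QuotientGroup.eq]
    refine ⟨g, ?_⟩
    simp
  rw [this, mul_assoc]

/-- The Kaloujnine and Krasner type embedding of `G` in `ker P ≀ Ω` attached to a transversal `γ`. -/
def cocycleHom (P : G →* Ω) (γ : Ω → G) (hγ : ∀ g ω, P (γ (P g * ω)) = P g * P (γ ω)) :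
    G →* RegularWreathProduct P.ker Ω where
  toFun g := ⟨fun x => ⟨(γ x)⁻¹ * g * γ ((P g)⁻¹ * x), by
    have := hγ g ((P g)⁻¹ * x)
    rw [mul_inv_cancel_left] at this
    rw [MonoidHom.mem_ker, map_mul, map_mul, map_inv, this]
    simp [mul_assoc]⟩, P g⟩
  map_one' := by
    ext x
    · simp
    · simp
  map_mul' g h := by
    ext x
    · simp [mul_assoc]
    · simp

@[simp] theorem cocycleHom_right (P : G →* Ω) (γ : Ω → G)
    (hγ : ∀ g ω, P (γ (P g * ω)) = P g * P (γ ω)) (g : G) :
    (cocycleHom P γ hγ g).right = P g := rfl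

theorem cocycleHom_left_coe (P : G →* Ω) (γ : Ω → G)
    (hγ : ∀ g ω, P (γ (P g * ω)) = P g * P (γ ω)) (g : G) (x : Ω) :
    (((cocycleHom P γ hγ g).left x : P.ker) : G) = (γ x)⁻¹ * g * γ ((P g)⁻¹ * x) := rfl

/-- The universal lift of `G ∗ F(X)` to the wreath product of `ker P ∗ F(X × Ω)` by `Ω`. -/
noncomputable def liftHom {X : Type*} (P : G →* Ω) (γ : Ω → G)
    (hγ : ∀ g ω, P (γ (P g * ω)) = P g * P (γ ω)) (q : X → Ω) :
    Monoid.Coprod G (FreeGroup X) →*
      RegularWreathProduct (Monoid.Coprod P.ker (FreeGroup (X × Ω))) Ω :=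
  Monoid.Coprod.lift ((wmap inl).comp (cocycleHom P γ hγ))
    (FreeGroup.lift fun i => ⟨fun ω => inr (FreeGroup.of (i, ω)), q i⟩)

theorem rightHom_comp_liftHom {X : Type*} (P : G →* Ω) (γ : Ω → G)
    (hγ : ∀ g ω, P (γ (P g * ω)) = P g * P (γ ω)) (q : X → Ω) :
    RegularWreathProduct.rightHom.comp (liftHom P γ hγ q) =
      Monoid.Coprod.lift P (FreeGroup.lift q) := by
  apply Monoid.Coprod.hom_ext
  · ext g
    simp [liftHom]
  · ext x
    simp [liftHom]

/-- If the lifted system over `ker P` is solvable, then the original system over `G` is. -/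
theorem solvableOver_of_lifted {I X : Type*} (P : G →* Ω) (γ : Ω → G)
    (hγ : ∀ g ω, P (γ (P g * ω)) = P g * P (γ ω)) (q : X → Ω)
    (w : I → Monoid.Coprod G (FreeGroup X))
    (hq : ∀ i, Monoid.Coprod.lift P (FreeGroup.lift q) (w i) = 1)
    (hE : SolvableOver fun a : I × Ω => (liftHom P γ hγ q (w a.1)).left a.2) :
    SolvableOver w := by
  set E : I × Ω → Monoid.Coprod P.ker (FreeGroup (X × Ω)) :=
    fun a : I × Ω => (liftHom P γ hγ q (w a.1)).left a.2 with hEdef
  let θ := QuotientGroup.mk' (Subgroup.normalClosure (Set.range E))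
  have hcomp : Monoid.Coprod.lift ((wmap (Q := Ω) θ).comp ((wmap inl).comp (cocycleHom P γ hγ)))
      (FreeGroup.lift fun i => wmap θ ⟨fun ω => inr (FreeGroup.of (i, ω)), q i⟩) =
      (wmap θ).comp (liftHom P γ hγ q) := by
    apply Monoid.Coprod.hom_ext
    · ext g <;> simp [liftHom]
    · ext x <;> simp [liftHom]
  refine SolvableOver.of_hom ((wmap (Q := Ω) θ).comp ((wmap inl).comp (cocycleHom P γ hγ))) ?_
    (fun i => wmap θ ⟨fun ω => inr (FreeGroup.of (i, ω)), q i⟩) ?_
  · rw [injective_iff_map_eq_one]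
    intro g hg
    have h1 : P g = 1 := by
      have := congrArg RegularWreathProduct.right hg
      simpa using this
    have h2 : θ (inl ((cocycleHom P γ hγ g).left 1)) = 1 := by
      have := congrFun (congrArg RegularWreathProduct.left hg) 1
      simpa using this
    have h3 : (cocycleHom P γ hγ g).left 1 = 1 :=
      hE _ ((QuotientGroup.eq_one_iff _).1 h2)
    have h4 := congrArg (Subtype.val) h3
    rw [cocycleHom_left_coe, h1] at h4
    simp only [inv_one, one_mul, OneMemClass.coe_one] at h4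
    have h5 : g = γ 1 * ((γ 1)⁻¹ * g * γ 1) * (γ 1)⁻¹ := by group
    rw [h5, h4]
    simp
  · intro i
    rw [hcomp]
    ext x
    · have : E (i, x) ∈ Subgroup.normalClosure (Set.range E) :=
        Subgroup.subset_normalClosure ⟨(i, x), rfl⟩
      simpa [θ, hEdef] using (QuotientGroup.eq_one_iff _).2 this
    · have := DFunLike.congr_fun (rightHom_comp_liftHom P γ hγ q) (w i)
      simpa [hq i] using this

end Vale.Agent.Lib.P174
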